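import Vale.Agent.P281Z.Bs.Defs
import Vale.Agent.P281Z.Nt.Hyp

/-!
# P281Z, extension from the fibres: logarithmic poles are almost integrable
-/

open scoped Manifold ContDiff Topology ENNReal
open Set Filter MeasureTheory Metric
open Vale.Agent.P272.K
open Vale.Agent.P277Z (Hol)
open Vale.Agent.P277Z.Slc (Snc LEq)
open Vale.Agent.P281Z.Nt

noncomputable section

namespace Vale.Agent.P281Z.Bs

namespace LintH

variable {n : ℕ}

theorem int_mon {s : Fin n → ℝ} (hs : ∀ i, -2 < s i) :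
    IntegrableOn (fun z : Cm n => ∏ i, ‖z i‖ ^ s i) (ball 0 1) := by
  rw [IntegrableOn, ball_pi _ one_pos, volume_pi, Measure.restrict_pi_pi]
  refine Integrable.fintype_prod (f := fun i (z : ℂ) => ‖z‖ ^ s i) fun i => ?_
  exact integrableOn_ball_of_norm_le_rpow (μ := (volume : Measure ℂ)) (r := 1) (C := 1)
    (α := - s i) (by simp) (by have := hs i; simp; linarith)
    (Eventually.of_forall fun z => by
      rw [one_mul, neg_neg, Real.norm_of_nonneg (Real.rpow_nonneg (norm_nonneg _) _)])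
    (measurable_norm.pow_const _).aestronglyMeasurable

variable {X : Type} [TopologicalSpace X] [ChartedSpace (Cm n) X] [IsManifold 𝓘(ℂ, Cm n) ω X]
  {x : X}

omit [IsManifold 𝓘(ℂ, Cm n) ω X] in
/-- change of coordinates -/
theorem chg {Θ e : Chart n X} (h : Co n Θ) (hx : x ∈ Θ.source) (he : At e x) {u : X → ℝ≥0∞}
    {V : Set (Cm n)} (hV : V ∈ 𝓝 (Θ x)) (hu : ∫⁻ z in V, u (Θ.symm z) < ⊤) :
    ∃ U ∈ 𝓝 (e x), ∫⁻ z in U, u (e.symm z) < ⊤ := by
  have hx' := Θ.map_source hx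
  have hΨ : AnalyticAt ℂ (fun v => e (Θ.symm v)) (Θ x) :=
    h.inv _ hx' e (by rwa [Θ.left_inv hx])
  have hdet : ContinuousAt (fun w => |(fderiv ℝ (fun v => e (Θ.symm v)) w).det|) (Θ x) :=
    (ContinuousLinearMap.continuous_det.continuousAt.comp
      (((hΨ.contDiffAt (n := 1)).restrict_scalars ℝ).continuousAt_fderiv one_ne_zero)).abs
  obtain ⟨r, hr, hb⟩ := Metric.eventually_nhds_iff_ball.1
    ((hdet.eventually (gt_mem_nhds (lt_add_one _))).and (hΨ.eventually_analyticAt.and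
      ((Θ.open_target.eventually_mem hx').and ((show ∀ᶠ w in 𝓝 (Θ x), w ∈ V from hV).and
        ((Θ.tendsto_symm hx).eventually (at_near he))))))
  refine ⟨(fun v => e (Θ.symm v)) '' ball (Θ x) r, ?_, ?_⟩
  · have h1 := Θ.symm.image_mem_nhds hx' (ball_mem_nhds _ hr)
    rw [Θ.left_inv hx] at h1
    rw [← image_image]
    exact e.image_mem_nhds he.2 h1
  · rw [lintegral_image_eq_lintegral_abs_det_fderiv_mul volume measurableSet_ball
      (f' := fderiv ℝ fun v => e (Θ.symm v)) (fun w hw =>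
        ((hb w hw).2.1.differentiableAt.restrictScalars ℝ).hasFDerivAt.hasFDerivWithinAt)
      fun w hw w' hw' k => Θ.symm.injOn (hb w hw).2.2.1 (hb w' hw').2.2.1
        (e.injOn (hb w hw).2.2.2.2.2 (hb w' hw').2.2.2.2.2 k)]
    refine lt_of_le_of_lt ?_ (ENNReal.mul_lt_top (ENNReal.ofReal_lt_top
      (r := |(fderiv ℝ (fun v => e (Θ.symm v)) (Θ x)).det| + 1)) hu)
    refine le_trans ?_ (mul_le_mul_right (lintegral_mono_set fun w hw => (hb w hw).2.2.2.1) _)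
    rw [← lintegral_const_mul' _ _ ENNReal.ofReal_ne_top]
    refine setLIntegral_mono' measurableSet_ball fun w hw => ?_
    rw [e.left_inv (hb w hw).2.2.2.2.2]
    exact mul_le_mul_left (ENNReal.ofReal_le_ofReal (hb w hw).1.le) _

omit [IsManifold 𝓘(ℂ, Cm n) ω X] [ChartedSpace (Cm n) X] in
theorem bd {φ : X → ℝ} (h : ContinuousAt φ x) : ∃ C, ∀ᶠ y in 𝓝 x, φ y ≤ C :=
  ⟨_, (h.eventually (gt_mem_nhds (lt_add_one _))).mono fun _ => le_of_lt⟩

theorem one {D : Set X} {ζ h : X → ℂ} {c ε : ℝ} (hζ : LEq n D x ζ) (hc : c ≤ 1) (hh : Hol n h x)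
    (h0 : 0 < c → ∀ᶠ y in 𝓝 x, y ∈ D → h y = 0) (hε : 0 < ε) : ∃ s C : ℝ, -2 < s ∧
      (x ∉ D → s = 0) ∧ ∀ᶠ y in 𝓝 x, ‖h y‖ ^ ε ≤ C * ‖ζ y‖ ^ (2 * c + s) := by
  have k := fun {g : X → ℂ} (hg : Hol n g x) => hg.cont.norm.rpow_const (Or.inr hε.le)
  by_cases hx : x ∈ D
  · by_cases h1 : 0 < c
    · obtain ⟨q, hq, h2⟩ := Hp.div hζ hh (h0 h1)
      obtain ⟨C, hC⟩ := bd (k hq)
      refine ⟨ε - 2 * c, C, by linarith, fun a => absurd hx a, ?_⟩
      filter_upwards [h2, hC] with y a b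
      rw [a, norm_mul, Real.mul_rpow (norm_nonneg _) (norm_nonneg _), add_sub_cancel]
      exact mul_le_mul_of_nonneg_right b (Real.rpow_nonneg (norm_nonneg _) _)
    · obtain ⟨C, hC⟩ := bd (k hh)
      exact ⟨-(2 * c), C, by linarith, fun a => absurd hx a, hC.mono fun y a => by simpa using a⟩
  · have h1 : ζ x ≠ 0 := fun a => hx (hζ.mem.1 a)
    obtain ⟨C, hC⟩ := bd ((k hh).div (hζ.hol.cont.norm.rpow_const (p := 2 * c)
      (Or.inl (norm_ne_zero_iff.2 h1))) (Real.rpow_pos_of_pos (norm_pos_iff.2 h1) _).ne')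
    refine ⟨0, C, by norm_num, fun _ => rfl, ?_⟩
    filter_upwards [hC, hζ.hol.ne_near h1] with y a b
    rw [add_zero]
    exact (div_le_iff₀ (Real.rpow_pos_of_pos (norm_pos_iff.2 b) _)).1 a

end LintH

open LintH

theorem lint : LINT := by
  classical
  intro n W κ _ E c σ h x hE hσ hc hh h0 η hη e he
  obtain ⟨ζ, hζ, hi⟩ := hE x
  obtain ⟨Θ, ι, h1, h2, -, h3, h4⟩ := Hp.exists_crd hi (fun a => (hζ a).mem.2 a.2) univ_mem
  have hN : (0 : ℝ) < Fintype.card κ + 1 := by positivity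
  have hε := div_pos hη hN
  set ε := η / (Fintype.card κ + 1) with hεd
  choose s C s1 s2 s3 using fun l => one (hζ l) (hc l) hh (h0 l) hε
  obtain ⟨C₀, hC₀⟩ := bd (hh.cont.norm.rpow_const (Or.inr hε.le))
  obtain ⟨C₁, hC₁⟩ := hσ e he ζ hζ
  let s' : Fin n → ℝ := Function.extend ι (fun a => s a) 0
  have hs' : ∀ i, -2 < s' i := fun i => by
    by_cases a : ∃ a, ι a = i
    · obtain ⟨a, rfl⟩ := a
      simpa only [s', ι.injective.extend_apply] using s1 a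
    · simp only [s', Function.extend_apply' _ _ _ a, Pi.zero_apply]
      norm_num
  have key : ∀ᶠ y in 𝓝 x, (∀ i, Θ y i ≠ 0) → ‖σ e y‖ ^ 2 * ‖h y‖ ^ η ≤
      C₁ ^ 2 * (C₀ * ∏ l, C l) * ∏ i, ‖Θ y i‖ ^ s' i := by
    filter_upwards [eventually_all.2 s3, hC₀, hC₁, Θ.open_source.mem_nhds h2,
      eventually_all.2 fun l => (hζ l).1, eventually_all.2 fun l : {l // x ∉ E l} =>
        (hζ l).not_mem_near l.2] with y a1 a2 a3 a4 a5 a6 a7
    have b1 : y ∈ off E := fun l hl => by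
      by_cases b : x ∈ E l
      · exact a7 (ι ⟨l, b⟩) ((h4 y a4 _).trans ((a5 l).2 hl))
      · exact a6 ⟨l, b⟩ hl
    have b2 : ∀ l, 0 < ‖ζ l y‖ := fun l => norm_pos_iff.2 fun b => b1 l ((a5 l).1 b)
    have b3 : ∏ i, ‖Θ y i‖ ^ s' i = ∏ l, ‖ζ l y‖ ^ s l :=
      (Fintype.prod_of_injective ι ι.injective (fun a => ‖ζ a y‖ ^ s a) _
        (fun i hi => by simp only [s', Function.extend_apply' _ _ _ hi, Pi.zero_apply,
          Real.rpow_zero]) fun a => by simp only [s', ι.injective.extend_apply, h4 y a4]).symm.trans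
      (Fintype.prod_of_injective Subtype.val Subtype.val_injective _ _
        (fun l hl => by rw [s2 l fun b => hl ⟨⟨l, b⟩, rfl⟩, Real.rpow_zero]) fun _ => rfl)
    have r0 := Real.rpow_nonneg (norm_nonneg (h y)) ε
    have b4 : ‖h y‖ ^ η = ‖h y‖ ^ ε * ∏ _l : κ, ‖h y‖ ^ ε := by
      rw [Finset.prod_const, Finset.card_univ, ← pow_succ', ← Real.rpow_mul_natCast (norm_nonneg _),
        hεd, Nat.cast_succ, div_mul_cancel₀ _ hN.ne']
    have b5 : ∏ _l : κ, ‖h y‖ ^ ε ≤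
        (∏ l, C l) * ((∏ l, ‖ζ l y‖ ^ c l) ^ 2 * ∏ l, ‖ζ l y‖ ^ s l) := by
      refine (Finset.prod_le_prod (fun _ _ => r0) fun l _ => a1 l).trans (le_of_eq ?_)
      rw [← Finset.prod_pow, ← Finset.prod_mul_distrib, ← Finset.prod_mul_distrib]
      refine Finset.prod_congr rfl fun l _ => ?_
      rw [Real.rpow_add (b2 l), mul_comm 2, Real.rpow_mul (norm_nonneg _), Real.rpow_two]
    have p0 : 0 ≤ ∏ _l : κ, ‖h y‖ ^ ε := Finset.prod_nonneg fun _ _ => r0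
    have p1 := wt_pos (fun l => norm_pos_iff.1 (b2 l)) c
    have p2 := wt_pos (fun l => norm_pos_iff.1 (b2 l)) s
    have p3 : 0 ≤ ∏ l, C l := nonneg_of_mul_nonneg_left (p0.trans b5) (by positivity)
    have b6 : (‖σ e y‖ * ∏ l, ‖ζ l y‖ ^ c l) ^ 2 ≤ C₁ ^ 2 :=
      pow_le_pow_left₀ (by positivity) (a3 b1) 2
    rw [b3, b4]
    calc _ ≤ ‖σ e y‖ ^ 2 * (C₀ * ((∏ l, C l) * ((∏ l, ‖ζ l y‖ ^ c l) ^ 2 *
          ∏ l, ‖ζ l y‖ ^ s l))) :=
          mul_le_mul_of_nonneg_left (mul_le_mul a2 b5 p0 (r0.trans a2)) (sq_nonneg _)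
      _ = (‖σ e y‖ * ∏ l, ‖ζ l y‖ ^ c l) ^ 2 * ((C₀ * ∏ l, C l) * ∏ l, ‖ζ l y‖ ^ s l) := by ring
      _ ≤ C₁ ^ 2 * ((C₀ * ∏ l, C l) * ∏ l, ‖ζ l y‖ ^ s l) :=
          mul_le_mul_of_nonneg_right b6 (mul_nonneg (mul_nonneg (r0.trans a2) p3) p2.le)
      _ = _ := by ring
  obtain ⟨O, hO, hOo, hp⟩ := _root_.mem_nhds_iff.1 (inter_mem (ball_mem_nhds _ one_pos)
    (((Θ.tendsto_symm h2).eventually key).and (Θ.eventually_right_inverse' h2)))
  refine chg (u := fun y => ‖σ e y‖ₑ ^ 2 * ‖h y‖ₑ ^ η) h1 h2 he (hOo.mem_nhds hp)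
    (lt_of_le_of_lt ?_ (((int_mon hs').mono_set fun z hz => h3 ▸ (hO hz).1).const_mul
      (C₁ ^ 2 * (C₀ * ∏ l, C l))).lintegral_lt_top)
  refine setLIntegral_mono_ae' hOo.measurableSet ?_
  filter_upwards [ae_all_iff.2 fun i => Measure.ae_eval_ne (fun _ : Fin n => (volume : Measure ℂ))
    i 0] with z hz hzO
  obtain ⟨-, a1, a2⟩ := hO hzO
  rw [a2] at a1
  rw [← ofReal_norm, ← ofReal_norm, ENNReal.ofReal_rpow_of_nonneg (norm_nonneg _) hη.le,
    ← ENNReal.ofReal_pow (norm_nonneg _), ← ENNReal.ofReal_mul (sq_nonneg _)]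
  exact ENNReal.ofReal_le_ofReal (a1 hz)

end Vale.Agent.P281Z.Bs
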