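import Vale.Agent.P281Z.Bs.Defs
import Vale.Agent.P281Z.Mf.Adapt
import Mathlib.MeasureTheory.Function.Jacobian
import Mathlib.MeasureTheory.Measure.Lebesgue.VolumeOfBalls

/-!
# P281Z, extension from the fibres: integrability bounds the orders
-/

open scoped Manifold ContDiff Topology ENNReal
open Set Filter MeasureTheory Metric Function
open Vale.Agent.P272.K Vale.Agent.P285.H281.FD
open Vale.Agent.P277Z (Hol Nz)
open Vale.Agent.P277Z.Slc (Snc Ind at_chartAt tendsto_symm)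
open Vale.Agent.P281Z.Gt (LI)

noncomputable section

namespace Vale.Agent.P281Z.Bs

/-- the function `1 / |Ψ z j| ^ 2` is not integrable -/
theorem nint {n : ℕ} {Ψ : Cm n → Cm n} {z₀ : Cm n} (j : Fin n) (hΨ : AnalyticAt ℂ Ψ z₀)
    (hm : map Ψ (𝓝 z₀) = 𝓝 (Ψ z₀)) (h0 : Ψ z₀ j = 0) {g : Cm n → ℝ≥0∞} {c : ℝ} (hc : 0 < c)
    (hg : ∀ᶠ z in 𝓝 z₀, Ψ z j ≠ 0 → ENNReal.ofReal (c / ‖Ψ z j‖ ^ 2) ≤ g z) {U : Set (Cm n)}
    (hU : U ∈ 𝓝 z₀) : ∫⁻ z in U, g z = ⊤ := by
  by_contra hfin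
  have hR : AnalyticAt ℝ Ψ z₀ := hΨ.restrictScalars
  obtain ⟨M, -, hM⟩ := bdd_near
    (ContinuousLinearMap.continuous_det.continuousAt.comp hR.fderiv.continuousAt).abs
  obtain ⟨O, o1, o2, o3⟩ := _root_.eventually_nhds_iff.1
    (hR.eventually_analyticAt.and (hM.and (hg.and hU)))
  obtain ⟨r, hr, hb⟩ := Metric.mem_nhds_iff.1 (hm ▸ image_mem_map (m := Ψ) (o2.mem_nhds o3))
  let B : ℝ → Set (Cm n) := fun t => O ∩ (fun z => Ψ z j) ⁻¹' (ball 0 t \ {0})
  have hB : ∀ t, MeasurableSet (B t) := fun t => (ContinuousOn.isOpen_inter_preimage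
    (fun z hz => (continuousAt_pi.1 (o1 z hz).1.continuousAt j).continuousWithinAt) o2
    (isOpen_ball.sdiff isClosed_singleton)).measurableSet
  let κ : ℝ≥0∞ := ∏ a ∈ Finset.univ \ {j}, volume (ball (Ψ z₀ a) r)
  have hκ : κ ≠ 0 := Finset.prod_ne_zero_iff.2 fun a _ => (measure_ball_pos _ _ hr).ne'
  have key : ∀ t, 0 < t → t ≤ r → ENNReal.ofReal c * (NNReal.pi * κ) ≤
      ENNReal.ofReal M * (volume.restrict O).withDensity g (B t) := fun t h1 h2 => by
    have a1 : univ.pi (update (fun a => ball (Ψ z₀ a) r) j (ball 0 t \ {0})) ⊆ Ψ '' B t := by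
      intro w hw
      have b1 : w j ∈ ball (0 : ℂ) t \ {0} := by simpa only [update_self] using hw j trivial
      obtain ⟨z, b2, rfl⟩ := hb (show w ∈ ball (Ψ z₀) r by
        rw [ball_pi _ hr]
        intro a _
        by_cases k : a = j
        · subst k
          exact ball_subset_ball h2 (show w a ∈ ball (Ψ z₀ a) t from h0 ▸ b1.1)
        · simpa only [update_of_ne k] using hw a trivial)
      exact ⟨z, ⟨b2, b1⟩, rfl⟩
    have a2 : volume (univ.pi (update (fun a => ball (Ψ z₀ a) r) j (ball 0 t \ {0}))) =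
        ENNReal.ofReal t ^ 2 * NNReal.pi * κ := by
      rw [volume_pi_pi]
      simp only [apply_update (fun _ (s : Set ℂ) => volume s)]
      rw [Finset.prod_update_of_mem (Finset.mem_univ j), measure_sdiff_null (measure_singleton _),
        Complex.volume_ball]
    have a3 : volume (Ψ '' B t) ≤ ENNReal.ofReal M * volume (B t) := by
      refine (addHaar_image_le_lintegral_abs_det_fderiv volume (hB t) (f' := fderiv ℝ Ψ)
        fun z hz => (o1 z hz.1).1.differentiableAt.hasFDerivAt.hasFDerivWithinAt).trans ?_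
      rw [← setLIntegral_const]
      exact setLIntegral_mono' (hB t) fun z hz => ENNReal.ofReal_le_ofReal (o1 z hz.1).2.1
    have a4 : ENNReal.ofReal (c / t ^ 2) * volume (B t) ≤
        (volume.restrict O).withDensity g (B t) := by
      rw [withDensity_apply _ (hB t), Measure.restrict_restrict_of_subset inter_subset_left,
        ← setLIntegral_const]
      refine setLIntegral_mono' (hB t) fun z hz => le_trans (ENNReal.ofReal_le_ofReal ?_)
        ((o1 z hz.1).2.2.1 hz.2.2)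
      exact div_le_div_of_nonneg_left hc.le (pow_pos (norm_pos_iff.2 hz.2.2) 2)
        (pow_le_pow_left₀ (norm_nonneg _) (mem_ball_zero_iff.1 hz.2.1).le 2)
    calc _ = ENNReal.ofReal (c / t ^ 2) * (ENNReal.ofReal t ^ 2 * NNReal.pi * κ) := by
          rw [mul_assoc, ← mul_assoc _ (_ ^ 2), ← ENNReal.ofReal_pow h1.le,
            ← ENNReal.ofReal_mul (by positivity), div_mul_cancel₀ _ (by positivity)]
      _ ≤ ENNReal.ofReal (c / t ^ 2) * (ENNReal.ofReal M * volume (B t)) :=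
          mul_le_mul_right (a2 ▸ (measure_mono a1).trans a3) _
      _ ≤ _ := by
          rw [mul_left_comm]
          exact mul_le_mul_right a4 _
  have a5 : (volume.restrict O).withDensity g (B (r / ((0 : ℕ) + 1))) ≠ ⊤ :=
    ne_top_of_le_ne_top hfin ((measure_mono (subset_univ _)).trans (by
      rw [withDensity_apply _ .univ, Measure.restrict_univ]
      exact lintegral_mono_set fun z hz => (o1 z hz).2.2.2))
  have a6 := tendsto_measure_iInter_atTop (μ := (volume.restrict O).withDensity g)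
    (s := fun m : ℕ => B (r / (m + 1))) (fun m => (hB _).nullMeasurableSet)
    (fun m m' k => inter_subset_inter_right _ (preimage_mono (sdiff_subset_sdiff_left
      (ball_subset_ball (by gcongr))))) ⟨0, a5⟩
  have a7 : ⋂ m : ℕ, B (r / (m + 1)) = ∅ := eq_empty_of_forall_notMem fun z hz => by
    have b1 := norm_pos_iff.2 (mem_iInter.1 hz 0).2.2
    obtain ⟨m, k⟩ := exists_nat_gt (r / ‖Ψ z j‖)
    have b2 := mem_ball_zero_iff.1 (mem_iInter.1 hz m).2.1
    rw [div_lt_iff₀ b1] at k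
    rw [lt_div_iff₀ (by positivity)] at b2
    nlinarith
  rw [a7, measure_empty] at a6
  have a8 := ge_of_tendsto' (ENNReal.Tendsto.const_mul (a := ENNReal.ofReal M) a6
    (.inr ENNReal.ofReal_ne_top)) fun m => key _ (by positivity)
      (div_le_self hr.le (le_add_of_nonneg_left (Nat.cast_nonneg m)))
  rw [mul_zero, nonpos_iff_eq_zero] at a8
  exact mul_ne_zero (ENNReal.ofReal_pos.2 hc).ne'
    (mul_ne_zero (ENNReal.coe_ne_zero.2 NNReal.pi_ne_zero) hκ) a8

theorem nli {n : ℕ} {W : Mf n} {κ : Type} [Fintype κ] {E : κ → Set W.X} {k : κ → ℤ}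
    {τ h : W.X → ℂ} {x : W.X} {e : Chart n W.X} {l : κ} (hE : Snc n E) (hτ : OrdAt n E k τ x)
    (hl : x ∈ E l) (he : At e x) (hh : Hol n h x) (h0 : Nz h x) :
    ∃ m : ℕ, ∀ η : ℝ, 0 ≤ η → 2 * (k l : ℝ) + m * η ≤ -2 → ∀ U ∈ 𝓝 (e x),
      ∫⁻ z in U, ‖τ (e.symm z)‖ₑ ^ 2 * ‖h (e.symm z)‖ₑ ^ η = ⊤ := by
  classical
  obtain ⟨ζ, hζ, hI⟩ := hE x
  obtain ⟨b, h1, -, h3, h4⟩ := hτ ζ hζ
  obtain ⟨m, b', k1, k2, k3⟩ := Md.exists_ord (hζ l) hl hh h0
  refine ⟨m, fun η hη hk U hU => ?_⟩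
  have f1 : ∃ᶠ w in 𝓝 x, (w ∈ E l ∧ b' w ≠ 0) ∧ b w ≠ 0 ∧ ∀ l', l' ≠ l → ζ l' w ≠ 0 := by
    refine frequently_frequently_nhds.1 ((((Md.gen_pt hζ hI hl h1
      (not_dvd_of (hζ l) (h4 l hl))).self_of_nhds hl).and_eventually
      ((Md.ndv (hζ l) hl k1 k2).and (h1.near.and (eventually_all.2 fun l => (hζ l).near)))).mono ?_)
    rintro z ⟨⟨a1, a2, a3⟩, a4, a5, a6⟩
    exact (a4 a1).and_eventually ((a5.ne_near a2).and (eventually_all.2 fun l' =>
      eventually_imp_distrib_left.2 fun c => (a6 l').hol.ne_near (a3 l' c)))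
  obtain ⟨w, ⟨⟨m1, m2⟩, m3, m4⟩, m5, m6, m7, m8, m9, m10, m11⟩ := (f1.and_eventually
    ((eventually_all.2 fun l => (hζ l).near).and (h1.near.and (k1.near.and
      (h3.eventually_nhds.and (k3.eventually_nhds.and ((at_near he).and
        ((e.continuousAt he.2).eventually (eventually_mem_nhds_iff.2 hU))))))))).exists
  have z0 : ζ l w = 0 := (m5 l).mem.2 m1
  obtain ⟨c, j, c1, c2, -, -, c3⟩ := exists_chart (h := fun _ : Unit => ζ l) (x := w)
    ⟨fun _ => (m5 l).hol, fun e' he' => linearIndependent_unique_iff.2 (((m5 l).2 e' he').2 z0)⟩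
    univ_mem
  have c4 : e.symm (e w) = w := e.left_inv m10.2
  have d1 : ContinuousAt (fun y => ‖b y * ∏ l' ∈ Finset.univ.erase l, ζ l' y ^ k l'‖ ^ 2 *
      ‖b' y‖ ^ η) w := ((m6.mul (Hol.prod _ fun l' a => (m5 l').hol.zpow
        (m4 l' (Finset.ne_of_mem_erase a)) _)).cont.norm.pow 2).mul
      (m7.cont.norm.rpow_const (.inr hη))
  have d2 : 0 < ‖b w * ∏ l' ∈ Finset.univ.erase l, ζ l' w ^ k l'‖ ^ 2 * ‖b' w‖ ^ η :=
    mul_pos (pow_pos (norm_pos_iff.2 (mul_ne_zero m3 (Finset.prod_ne_zero_iff.2 fun l' a =>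
      zpow_ne_zero _ (m4 l' (Finset.ne_of_mem_erase a))))) 2)
      (Real.rpow_pos_of_pos (norm_pos_iff.2 m2) _)
  refine nint (Ψ := fun z => c (e.symm z)) (j ()) (c1.an w c2 e m10) ?_
    (by rw [c4, c3 w c2, z0]) (half_pos d2) ((tendsto_symm m10).eventually (p := fun y =>
      c y (j ()) ≠ 0 → ENNReal.ofReal (_ / ‖c y (j ())‖ ^ 2) ≤ ‖τ y‖ₑ ^ 2 * ‖h y‖ₑ ^ η) ?_) m11
  · rw [c4, ← c.map_nhds_eq c2, ← e.symm_map_nhds_eq m10.2, map_map]
    rfl
  have d3 : ∀ᶠ y in 𝓝 w, ‖ζ l y‖ < 1 :=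
    (m5 l).hol.cont.norm.eventually (gt_mem_nhds (by simp [z0]))
  filter_upwards [c.open_source.mem_nhds c2, m8, m9, off_iff m5, d3,
    d1.eventually (lt_mem_nhds (half_lt_self d2)), eventually_all.2 fun l' =>
      eventually_imp_distrib_left.2 fun a => (m5 l').hol.ne_near (m4 l' a)]
    with y r1 r2 r3 r4 r5 r6 r7 r8
  rw [c3 y r1] at r8 ⊢
  have t0 := norm_pos_iff.2 r8
  rw [← ofReal_norm, ← ofReal_norm, ← ENNReal.ofReal_pow (norm_nonneg _),
    ENNReal.ofReal_rpow_of_nonneg (norm_nonneg _) hη, ← ENNReal.ofReal_mul (by positivity),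
    r2 (r4.2 fun l' => (em (l' = l)).elim (fun a => a ▸ r8) (r7 l')), r3,
    ← Finset.mul_prod_erase _ _ (Finset.mem_univ l), mul_left_comm, norm_mul (ζ l y ^ k l),
    norm_mul (ζ l y ^ m), Real.mul_rpow (norm_nonneg _) (norm_nonneg _), mul_pow, mul_mul_mul_comm,
    div_eq_inv_mul]
  refine ENNReal.ofReal_le_ofReal (mul_le_mul ?_ r6.le (half_pos d2).le (by positivity))
  rw [norm_zpow, norm_pow, ← Real.rpow_natCast, ← Real.rpow_natCast, ← Real.rpow_natCast,
    ← Real.rpow_intCast, ← Real.rpow_mul t0.le, ← Real.rpow_mul t0.le, ← Real.rpow_add t0,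
    ← Real.rpow_neg t0.le]
  exact Real.rpow_le_rpow_of_exponent_ge t0 r5.le (by push_cast; linarith)

theorem lord : LORD := fun n W κ _ E k τ x hE hτ => by
  have he := at_chartAt (n := n) x
  refine ⟨fun hL l hl => by_contra fun c => ?_, fun h hh h0 hL l hl => by_contra fun c => ?_⟩
  · obtain ⟨m, hm⟩ := nli hE (hτ _ he) hl he (P277Z.hol_const 1 x) (P277Z.nz_of_ne one_ne_zero)
    obtain ⟨U, hU, a⟩ := hL _ he
    have c' : (k l : ℝ) ≤ -1 := by exact_mod_cast (by omega : k l ≤ -1)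
    exact a.ne (by simpa using hm 0 le_rfl (by linarith) U hU)
  · obtain ⟨m, hm⟩ := nli hE (hτ _ he) hl he hh h0
    obtain ⟨U, hU, a⟩ := hL (2 / (m + 1)) (by positivity) _ he
    have c' : (k l : ℝ) ≤ -2 := by exact_mod_cast (by omega : k l ≤ -2)
    have c'' : (m : ℝ) * (2 / (m + 1)) ≤ 2 := by
      rw [mul_div_assoc', div_le_iff₀ (by positivity)]
      linarith
    exact a.ne (hm _ (by positivity) (by linarith) U hU)

end Vale.Agent.P281Z.Bs
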