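import Vale.Agent.P281Z.Bs.Fin
import Vale.Agent.P281Z.B3.Main
import Vale.Agent.P281Z.Ld.Lad
import Vale.Agent.P281Z.La.Hyp
import Vale.Agent.P281Z.La.Trv
import Vale.Agent.P281Z.Lg.All

/-!
# P281Z, block Bs: the extension theorem
-/

namespace Vale.Agent.P281Z.Bs

/-- logarithmic forms extend from a regular fibre -/
theorem b3r : B3R := B3.b3r_lad Lg.stLad Lg.stHyp Lg.stTrv Lg.b3

/-- the extension theorem -/
theorem ext1 : Gt.EXT1 := ext1_b3r b3r

end Vale.Agent.P281Z.Bs
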