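import Vale.Agent.P281Z.Bs.Defs
import Vale.Agent.P281Z.Pb.Api2
import Vale.Agent.P281Z.Rs.Clo

/-!
# P281Z, cyclic coverings
-/

open scoped Manifold ContDiff Topology Matrix
open Set Filter Function
open Vale.Agent.P272.K Vale.Agent.P285.H281.FD
open Vale.Agent.P277Z (Hol Mer Nz at_chart hol_const)
open Vale.Agent.P277Z.Slc (Snc dd)
open Vale.Agent.P277.HD (pull)
open Vale.Agent.P281Z.Gt (MS Cvg)

noncomputable section

namespace Vale.Agent.P281Z.Bs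

namespace Cy

variable {n q : ℕ} {V : Mf n} {L : Bd V.X} {A : Set V.X} {η : L.ι → V.X → ℂ} {hL : IsLB n L}
  {B : PB (VB.wt hL ![0, 1]) (n + 1)} {a b : L.ι} {h : B.H.ι} {w : B.P.X} {y : V.X} {c : ℂ}

theorem root {f : V.X → ℂ} (hf : Hol n f y) (hq : q ≠ 0) (hc : c ^ q = f y) (h0 : f y ≠ 0) :
    ∃ ρ, Hol n ρ y ∧ ρ y = c ∧ ∀ z, ρ z ^ q = f z :=
  ⟨fun z => c * (f z / f y) ^ (q : ℂ)⁻¹, (hol_const c y).mul fun e he =>
    ((hf.div (hol_const _ y) h0) e he).cpow analyticAt_const (by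
      simp only [he.left_inv, div_self h0, Complex.one_mem_slitPlane]),
    by simp only [div_self h0, Complex.one_cpow, mul_one], fun z => by
      rw [mul_pow, Complex.cpow_nat_inv_pow _ hq, hc, mul_div_cancel₀ _ h0]⟩

theorem one_near (hq : q ≠ 0) : ∀ᶠ s in 𝓝 (1 : ℂ), s ^ q = 1 → s = 1 := by
  have h1 : ContinuousAt (fun s : ℂ => ∑ i ∈ Finset.range q, s ^ i) 1 := by fun_prop
  filter_upwards [h1.eventually_ne (y := 0) (by simpa using hq)] with s hs k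
  have := geom_sum_mul s q
  rw [k, sub_self, mul_eq_zero, sub_eq_zero] at this
  exact this.resolve_left hs

variable (B) in
/-- the affine coordinate -/
def t (a : L.ι) (w : B.P.X) : ℂ :=
  B.x a (B.lb.cover w).choose w 1 / B.x a (B.lb.cover w).choose w 0

theorem t_eq (ha : B.pr w ∈ L.U a) (hh : w ∈ B.H.U h) : t B a w = B.x a h w 1 / B.x a h w 0 := by
  have k := (B.lb.cover w).choose_spec
  rw [t, B.xH a _ h w ha k hh, smul_ratio (B.lb.ne_zero _ _ w k hh)]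

theorem x_chg (ha : B.pr w ∈ L.U a) (hb : B.pr w ∈ L.U b) (hh : w ∈ B.H.U h) :
    B.x a h w 0 = B.x b h w 0 ∧ B.x a h w 1 = L.g a b (B.pr w) * B.x b h w 1 := by
  rw [B.xE a b h w ha hb hh]
  exact ⟨(Matrix.mulVec_diagonal _ _ (0 : Fin 2)).trans (one_mul _),
    (Matrix.mulVec_diagonal (fun c => L.g a b (B.pr w) ^ ![0, 1] c) _ (1 : Fin 2)).trans
      (congrArg (· * _) (pow_one _))⟩

theorem t_chg (ha : B.pr w ∈ L.U a) (hb : B.pr w ∈ L.U b) :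
    t B a w = L.g a b (B.pr w) * t B b w := by
  have k := x_chg ha hb (B.lb.cover w).choose_spec
  rw [t, k.1, k.2, t, mul_div_assoc]

theorem v_ne (c : ℂ) : (![1, c] : Cm 2) ≠ 0 := ne_iff.2 ⟨0, one_ne_zero⟩

theorem t_pt (ha : y ∈ L.U a) (c : ℂ) : t B a (B.pt a y ![1, c]) = c :=
  (B.ratio (i := a) ha (v_ne c) (B.lb.cover _).choose_spec 1 0).trans (div_one c)

theorem pt_t (ha : B.pr w ∈ L.U a) (hh : w ∈ B.H.U h) (h0 : B.x a h w 0 ≠ 0) :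
    B.pt a (B.pr w) ![1, t B a w] = w := by
  rw [← B.pt_x a h w _ ha hh (inv_ne_zero h0), ← ratio_eq, B.pr_pt a _ ha]
  refine congrArg _ (funext (Fin.forall_fin_two.2 ⟨(div_self h0).symm, ?_⟩))
  rw [ratio_eq, B.pt_x a h w _ ha hh (inv_ne_zero h0)]
  exact t_eq ha hh

theorem pt_hol {ρ : V.X → ℂ} (ha : y ∈ L.U a) (hρ : Hol n ρ y) :
    HolA n (n + 1) (fun z => B.pt a z ![1, ρ z]) y :=
  B.holA (i := a) (holM_id.at y) ha (Fin.forall_fin_two.2 ⟨hol_const 1 y, hρ⟩) (v_ne _)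

variable (L A η q) in
/-- `η` is a frame of `L ^ q` off `A` -/
structure Da : Prop where
  pos : q ≠ 0
  an : An n A
  hol : ∀ a, ∀ y ∈ L.U a, y ∉ A → Hol n (η a) y
  chg : ∀ a b, ∀ y ∈ L.U a, y ∈ L.U b → y ∉ A → η a y = L.g a b y ^ q * η b y
  ne : ∀ a, ∀ y ∈ L.U a, y ∉ A → η a y ≠ 0

variable (B A η q) in
/-- the roots of `η` -/
def X0 : Set B.P.X := {w | B.pr w ∉ A ∧ ∀ a h, B.pr w ∈ L.U a → w ∈ B.H.U h →
  B.x a h w 1 ^ q = η a (B.pr w) * B.x a h w 0 ^ q}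

variable (d : Da q L A η)
include d

theorem mem_iff (ha : B.pr w ∈ L.U a) (hh : w ∈ B.H.U h) : w ∈ X0 q A η B ↔
    B.pr w ∉ A ∧ B.x a h w 1 ^ q = η a (B.pr w) * B.x a h w 0 ^ q := by
  refine ⟨fun k => ⟨k.1, k.2 a h ha hh⟩, fun k => ⟨k.1, fun b h' hb hh' => ?_⟩⟩
  rw [B.xH b h' h w hb hh' hh, Pi.smul_apply, Pi.smul_apply, (x_chg hb ha hh).1,
    (x_chg hb ha hh).2, d.chg b a _ hb ha k.1, smul_eq_mul, smul_eq_mul, mul_pow, mul_pow, k.2]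
  ring

theorem mem_iff' (ha : B.pr w ∈ L.U a) (hh : w ∈ B.H.U h) : w ∈ X0 q A η B ↔
    B.pr w ∉ A ∧ B.x a h w 0 ≠ 0 ∧ t B a w ^ q = η a (B.pr w) := by
  rw [mem_iff d ha hh, t_eq ha hh, div_pow]
  refine and_congr_right fun _ => ⟨fun k => ?_, fun k => (div_eq_iff (pow_ne_zero _ k.1)).1 k.2⟩
  have h0 : B.x a h w 0 ≠ 0 := fun e => B.xnz a h w ha hh (funext (Fin.forall_fin_two.2
    ⟨e, pow_eq_zero_iff d.pos |>.1 (by rw [k, e, zero_pow d.pos, mul_zero])⟩))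
  exact ⟨h0, (div_eq_iff (pow_ne_zero _ h0)).2 k⟩

theorem pt_mem (ha : y ∈ L.U a) (hy : y ∉ A) (hc : c ^ q = η a y) :
    B.pt a y ![1, c] ∈ X0 q A η B := by
  obtain ⟨h, hh⟩ := B.lb.cover (B.pt a y ![1, c])
  rw [mem_iff' d (B.pt_mem (i := a) ha ha) hh, B.pr_pt a y ha, t_pt ha]
  exact ⟨hy, (B.x_ne_iff (i := a) ha (v_ne c) hh 0).2 one_ne_zero, hc⟩

theorem eq_pt (hw : w ∈ X0 q A η B) (ha : B.pr w ∈ L.U a) :
    B.pt a (B.pr w) ![1, t B a w] = w ∧ t B a w ^ q = η a (B.pr w) :=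
  let ⟨_, hh⟩ := B.lb.cover w
  let k := (mem_iff' d ha hh).1 hw
  ⟨pt_t ha hh k.2.1, k.2.2⟩

theorem t_hol (hw : w ∈ X0 q A η B) (ha : B.pr w ∈ L.U a) : Hol (n + 1) (t B a) w :=
  let ⟨h, hh⟩ := B.lb.cover w
  ((B.xhol a h w ha hh 1).div (B.xhol a h w ha hh 0) ((mem_iff' d ha hh).1 hw).2.1).congr
    ((B.near (i := a) ha hh).mono fun _ k => (t_eq k.1 k.2).symm)

/-- locally the roots are the graph of a function -/
theorem loc (hw : w ∈ X0 q A η B) (ha : B.pr w ∈ L.U a) : ∃ ρ, Hol n ρ (B.pr w) ∧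
    ρ (B.pr w) = t B a w ∧ (∀ z, ρ z ^ q = η a z) ∧
    ∀ᶠ v in 𝓝 w, B.pr v ∈ L.U a ∧ (v ∈ X0 q A η B ↔ t B a v - ρ (B.pr v) = 0) := by
  obtain ⟨h, hh⟩ := B.lb.cover w
  obtain ⟨ρ, h1, h2, h3⟩ := root (d.hol a _ ha hw.1) d.pos (eq_pt d hw ha).2 (d.ne a _ ha hw.1)
  have h4 : ρ (B.pr w) ≠ 0 := fun e => d.ne a _ ha hw.1 (by rw [← h3, e, zero_pow d.pos])
  have h5 := ((t_hol d hw ha).div (B.hol.hol h1) h4).cont
  rw [ContinuousAt, ← h2, div_self h4] at h5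
  refine ⟨ρ, h1, h2, h3, ?_⟩
  filter_upwards [B.near (i := a) ha hh, h5.eventually (one_near d.pos),
    (B.hol.hol h1).ne_near h4, (B.xhol a h w ha hh 0).ne_near ((mem_iff' d ha hh).1 hw).2.1,
    B.hol.cont.continuousAt.eventually (d.an.closed.isOpen_compl.mem_nhds hw.1)]
    with v k1 k2 k3 k4 k5
  rw [mem_iff' d k1.1 k1.2, sub_eq_zero]
  exact ⟨k1.1, fun k => (div_eq_one_iff_eq k3).1 (k2 (by
    rw [div_pow, k.2.2, ← h3, div_self (pow_ne_zero _ k3)])), fun k => ⟨k5, k4, by rw [k, h3]⟩⟩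

theorem subM : SubM (n + 1) n (X0 q A η B) := fun w hw => by
  obtain ⟨a, ha⟩ := hL.cover (B.pr w)
  obtain ⟨h, hh⟩ := B.lb.cover w
  obtain ⟨ρ, h1, -, -, h2⟩ := loc d hw ha
  have h3 := t_hol d hw ha
  have h4 := ((mem_iff' d ha hh).1 hw).2.1
  refine ⟨1, fun _ v => t B a v - ρ (B.pr v), rfl, ⟨fun _ => h3.sub (B.hol.hol h1), fun e he =>
    linearIndependent_unique_iff.2 fun k => ?_⟩, h2.mono fun v k => by simpa using k.2⟩
  refine (Nat.lt_succ_self n).not_ge (Imm.of_chart (B.hol.at w) he (at_chart _)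
    ((injective_iff_map_eq_zero _).2 fun ξ hξ => B.key (i := a) ha hh h4 he (at_chart _) ξ hξ
      (Fin.forall_fin_two.2 ⟨?_, ?_⟩))).le
  · rw [P277Z.Slc.dd_congr (b := fun _ => 1)
      (((B.xhol a h w ha hh 0).ne_near h4).mono fun q hq => div_self hq) he, dd, fderiv_fun_const]
    rfl
  · have h5 : dd (fun v => ρ (B.pr v)) e w ξ = 0 := by
      rw [dd_comp h1 (B.hol.at w) he (at_chart _), ContinuousLinearMap.comp_apply, hξ, map_zero]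
    rw [P277Z.Slc.dd_congr (b := t B a)
      ((B.near (i := a) ha hh).mono fun _ k => (t_eq k.1 k.2).symm) he]
    simp only [dd] at k h5 ⊢
    rw [fderiv_fun_sub (h3 e he).differentiableAt (B.hol.hol h1 e he).differentiableAt,
      sub_eq_zero] at k
    rw [k, h5]

/-- the covering, from the analyticity of the set of the roots -/
theorem core (hR : Rs.RES) (hL : IsLB n L) (hY : ∀ B : PB (VB.wt hL ![0, 1]) (n + 1), ∃ Y,
    An (n + 1) Y ∧ ∀ w, B.pr w ∉ A → (w ∈ Y ↔ w ∈ X0 q A η B)) :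
    ∃ (W : Mf n) (p : W.X → V.X) (k : ℕ) (E : Fin k → Set W.X) (lam : L.ι → W.X → ℂ),
      HolM n n p ∧ Snc n E ∧ (∀ l, IsConnected (E l)) ∧ (∀ x, x ∈ off E ↔ p x ∉ A) ∧
      (∀ x ∈ off E, Imm n n p x) ∧ Cvg n p A q ∧ (V.Kah → W.Kah) ∧
      (∀ a x, p x ∈ L.U a → ∃ u v, Hol n u x ∧ Hol n v x ∧
        ∀ᶠ y in 𝓝 x, y ∈ off E → v y ≠ 0 ∧ v y * lam a y = u y) ∧
      (∀ a x, p x ∈ L.U a → x ∈ off E → Hol n (lam a) x ∧ lam a x ^ q = η a (p x) ∧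
        ∀ x', p x' = p x → lam a x' = lam a x → x' = x) ∧
      ∀ a b x, p x ∈ L.U a → p x ∈ L.U b → lam a x = L.g a b (p x) * lam b x := by
  obtain ⟨B⟩ := Pb.pbex n 1 (n + 1) V (VB.wt hL ![0, 1]) rfl
  obtain ⟨Y, h1, h2⟩ := hY B
  obtain ⟨I, hI, -⟩ := Rs.idl _ _ _ (d.an.pre B.hol)
  obtain ⟨R⟩ := hR (n + 1) n B.P Y I h1 (by
    rw [hI, show Y \ B.pr ⁻¹' A = X0 q A η B from
      Set.ext fun w => ⟨fun k => (h2 w k.2).1 k.1, fun k => ⟨(h2 w k.1).2 k, k.1⟩⟩]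
    exact subM d)
  have ho := R.ovr
  have hb : ∀ x, x ∈ off R.G ↔ B.pr (R.π x) ∉ A := fun x =>
    (not_exists.symm.trans (R.bad x).not.symm).trans (by rw [hI]; rfl)
  rw [hI] at ho
  have hp : HolM n n fun x => B.pr (R.π x) := B.hol.comp ho.hol
  have hx : ∀ x, B.pr (R.π x) ∉ A → R.π x ∈ X0 q A η B := fun x k => (h2 _ k).1 (ho.maps x)
  refine ⟨R.V, _, R.r, R.G, fun a x => t B a (R.π x), hp, R.snc, R.conn, hb, fun x k => ?_,
    fun y hy => ?_, fun k => R.kah (B.kah k), fun a x k => ?_, fun a x k k' => ?_,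
    fun a b x => t_chg⟩
  · obtain ⟨a, ha⟩ := hL.cover (B.pr (R.π x))
    obtain ⟨ρ, k1, -, -, k2⟩ := loc d (hx x ((hb x).1 k)) ha
    refine Imm.of_comp (g := fun z => B.pt a z ![1, ρ z]) (pt_hol ha k1) (hp.at x)
      ((ho.imm x ((hb x).1 k)).cng ?_)
    filter_upwards [ho.hol.cont.continuousAt.eventually k2, (snc_open_off R.snc).mem_nhds k]
      with z b1 b2
    have b3 := hx z ((hb z).1 b2)
    rw [← sub_eq_zero.1 (b1.2.1 b3), (eq_pt d b3 b1.1).1]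
  · obtain ⟨a, ha⟩ := hL.cover y
    obtain ⟨c, hc⟩ := IsAlgClosed.exists_pow_nat_eq (η a y) (Nat.pos_of_ne_zero d.pos)
    obtain ⟨ρ, k1, -, k2⟩ := root (d.hol a y ha hy) d.pos hc (d.ne a y ha hy)
    have hζ := Complex.isPrimitiveRoot_exp q d.pos
    generalize Complex.exp (2 * Real.pi * Complex.I / q) = ζ at hζ
    have k3 : ∀ᶠ z in 𝓝 y, z ∈ L.U a ∧ z ∉ A :=
      (lb_near hL ha).and (d.an.closed.isOpen_compl.mem_nhds hy)
    have k4 : ∀ i : Fin q, ∀ᶠ z in 𝓝 y, ∃ x, R.π x = B.pt a z ![1, ζ ^ (i : ℕ) * ρ z] := fun i =>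
      k3.mono fun z k => by
        have b := pt_mem (B := B) d k.1 k.2 (c := ζ ^ (i : ℕ) * ρ z) (by
          rw [mul_pow, ← pow_mul, mul_comm (i : ℕ), pow_mul, hζ.pow_eq_one, one_pow, one_mul, k2])
        exact ho.ex ((h2 _ b.1).2 b) b.1
    choose σ hσ using fun i => (k4 i).choice
    have k5 : ∀ i z, z ∈ L.U a → R.π (σ i z) = B.pt a z ![1, ζ ^ (i : ℕ) * ρ z] →
        B.pr (R.π (σ i z)) = z := fun i z b1 b2 => by rw [b2, B.pr_pt a z b1]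
    refine ⟨σ, fun i => ho.lift_at (by rw [mem_preimage, k5 i y ha (hσ i).self_of_nhds]; exact hy)
      ((pt_hol ha ((hol_const _ y).mul k1)).cng ((hσ i).mono fun _ => Eq.symm)), ?_⟩
    filter_upwards [k3, eventually_all.2 hσ] with z b1 b2
    have b3 : ρ z ≠ 0 := fun e => d.ne a z b1.1 b1.2 (by rw [← k2, e, zero_pow d.pos])
    refine ⟨fun i j e => Fin.ext (hζ.pow_inj i.2 j.2 (mul_right_cancel₀ b3 ?_)),
      Subset.antisymm (range_subset_iff.2 fun i => k5 i z b1.1 (b2 i)) fun x e => ?_⟩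
    · rw [← t_pt (B := B) b1.1 (_ * _), ← b2, show σ i z = σ j z from e, b2, t_pt b1.1]
    · obtain rfl : B.pr (R.π x) = z := e
      have b4 := eq_pt d (hx x b1.2) b1.1
      have := NeZero.mk d.pos
      obtain ⟨i, b5, b6⟩ := hζ.eq_pow_of_pow_eq_one (ξ := t B a (R.π x) / ρ (B.pr (R.π x))) (by
        rw [div_pow, b4.2, ← k2, div_self (pow_ne_zero _ b3)])
      exact ⟨⟨i, b5⟩, ho.inj b1.2 (by rw [b2, b6, div_mul_cancel₀ _ b3, b4.1])⟩
  · obtain ⟨h, hh⟩ := B.lb.cover (R.π x)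
    refine ⟨_, _, ho.hol.hol (B.xhol a h _ k hh 1), ho.hol.hol (B.xhol a h _ k hh 0), ?_⟩
    filter_upwards [ho.hol.cont.continuousAt.eventually (B.near (i := a) k hh)] with z b1 b2
    have b3 := ((mem_iff' d b1.1 b1.2).1 (hx z ((hb z).1 b2))).2.1
    exact ⟨b3, by rw [t_eq b1.1 b1.2, mul_div_cancel₀ _ b3]⟩
  · have b1 := (hb x).1 k'
    refine ⟨ho.hol.hol (t_hol d (hx x b1) k), (eq_pt d (hx x b1) k).2, fun x' b2 b3 =>
      ho.inj b1 ?_⟩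
    rw [← (eq_pt d (hx x b1) k).1, ← (eq_pt d (hx x' (b2 ▸ b1)) (b2 ▸ k)).1,
      show t B a (R.π x') = t B a (R.π x) from b3, b2]

/-- the case of common denominators -/
theorem an_den (hd : ∀ y, ∃ a, y ∈ L.U a ∧ ∃ (κ : Type) (_ : Finite κ) (v u : κ → V.X → ℂ),
    (∀ j, Hol n (v j) y ∧ Hol n (u j) y) ∧
      ∀ᶠ z in 𝓝 y, z ∉ A → (∃ j, v j z ≠ 0) ∧ ∀ j, v j z * η a z = u j z)
    (B : PB (VB.wt hL ![0, 1]) (n + 1)) :
    ∃ Y, An (n + 1) Y ∧ ∀ w, B.pr w ∉ A → (w ∈ Y ↔ w ∈ X0 q A η B) := by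
  refine ⟨B.pr ⁻¹' A ∪ X0 q A η B, fun w => ?_, fun w k => or_iff_right k⟩
  obtain ⟨a, ha, κ, _, v, u, h1, h2⟩ := hd (B.pr w)
  obtain ⟨h, hh⟩ := B.lb.cover w
  refine (Ana.AnAt.union (d.an.pre B.hol w) (Ana.anAt_iInter fun j => Ana.anAt_zero
    (((B.hol.hol (h1 j).1).mul ((B.xhol a h w ha hh 1).pow q)).sub
      ((B.hol.hol (h1 j).2).mul ((B.xhol a h w ha hh 0).pow q))))).congr ?_
  filter_upwards [B.near (i := a) ha hh, B.hol.cont.continuousAt.eventually h2] with z k1 k2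
  refine or_congr_right' fun k => ?_
  obtain ⟨⟨j, k3⟩, k4⟩ := k2 k
  simp only [mem_iff d k1.1 k1.2, mem_iInter, mem_ofPred_eq, ← k4, mul_assoc, ← mul_sub]
  exact ⟨fun b => ⟨k, sub_eq_zero.1 ((mul_eq_zero.1 (b j)).resolve_left k3)⟩,
    fun b j => by rw [b.2, sub_self, mul_zero]⟩

/-- the case of a meromorphic section -/
theorem an_mer (hm : ∀ a, ∀ y ∈ L.U a, Mer n (η a) y) (B : PB (VB.wt hL ![0, 1]) (n + 1)) :
    ∃ Y, An (n + 1) Y ∧ ∀ w, B.pr w ∉ A → (w ∈ Y ↔ w ∈ X0 q A η B) := by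
  refine ⟨closure (X0 q A η B), fun w => ?_, fun w k => ⟨fun b => ?_, fun b => subset_closure b⟩⟩
  all_goals
    obtain ⟨a, ha⟩ := hL.cover (B.pr w)
    obtain ⟨h, hh⟩ := B.lb.cover w
    have x1 := (B.xhol a h w ha hh 1).pow q
    have x0 := (B.xhol a h w ha hh 0).pow q
  · obtain ⟨u, v, hu, hv, h0, h1⟩ := hm a _ ha
    refine ((Ana.anAt_zero (((B.hol.hol hv).mul x1).sub ((B.hol.hol hu).mul x0))).clo
      (Ana.AnAt.union (d.an.pre B.hol w) (Ana.anAt_zero (B.hol.hol hv)))).congr ?_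
    have e1 : ∀ᶠ y in 𝓝 (B.pr w), (y ∉ A → η a y * v y = u y) ∧ Nz v y := by
      filter_upwards [hu.near, hv.near, P277Z.gen_near h1, P277Z.Nz.near h0 hv, lb_near hL ha]
        with y b1 b2 b3 b4 b5
      exact ⟨fun hy => P277Z.eq_of_gen ((d.hol a y b5 hy).mul b2).cont b1.cont b3, b4⟩
    have e2 := (B.hol.cont.continuousAt.eventually e1).and (B.near (i := a) ha hh)
    have e3 : ∀ᶠ z in 𝓝 w, z ∈ {z | v (B.pr z) * B.x a h z 1 ^ q - u (B.pr z) * B.x a h z 0 ^ q = 0} \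
        (B.pr ⁻¹' A ∪ {z | v (B.pr z) = 0}) ↔ z ∈ X0 q A η B ∩ {z | v (B.pr z) ≠ 0} := by
      filter_upwards [e2] with z ⟨b1, b2⟩
      simp only [Set.mem_sdiff, mem_ofPred_eq, mem_union, mem_preimage, not_or, mem_inter_iff,
        mem_iff d b2.1 b2.2, sub_eq_zero]
      refine ⟨fun k => ⟨⟨k.2.1, mul_left_cancel₀ k.2.2 ?_⟩, k.2.2⟩, fun k => ⟨?_, k.1.1, k.2⟩⟩
      · rw [k.1, ← b1.1 k.2.1]; ring
      · rw [k.1.2, ← b1.1 k.1.1]; ring
    filter_upwards [Ana.closure_congr e3, e2.eventually_nhds] with z b1 b2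
    refine b1.trans ⟨fun k => closure_mono inter_subset_left k, fun k => ?_⟩
    rw [← closure_closure]
    refine mem_closure_iff_frequently.2 (((mem_closure_iff_frequently.1 k).and_eventually b2).mono ?_)
    rintro s ⟨b3, b4, b5, -⟩
    obtain ⟨ρ, k1, k2, k3, -⟩ := loc d b3 b5
    rw [← (eq_pt d b3 b5).1, ← k2]
    refine mem_closure_of_frequently_of_tendsto ?_ (pt_hol b5 k1).cont
    exact ((not_eventually.1 b4.2).and_eventually ((lb_near hL b5).and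
      (d.an.closed.isOpen_compl.mem_nhds b3.1))).mono fun y hy =>
        ⟨pt_mem d hy.2.1 hy.2.2 (k3 y), by rw [mem_ofPred_eq, B.pr_pt a y hy.2.1]; exact hy.1⟩
  · exact (mem_iff d ha hh).2 ⟨k, tendsto_nhds_unique_of_frequently_eq x1.cont.tendsto
      ((B.hol.hol (d.hol a _ ha k)).mul x0).cont.tendsto
      (((mem_closure_iff_frequently.1 b).and_eventually (B.near (i := a) ha hh)).mono
        fun z c => c.1.2 a h c.2.1 c.2.2)⟩

end Cy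

theorem cyc_of (hR : Rs.RES) : CYC := fun n q V L A η hL hq hA hη h0 => by
  have d : Cy.Da q L A η := ⟨hq.ne', hA.1, hη.hol, hη.chg, h0⟩
  obtain ⟨W, p, k, E, lam, h1, h2, h3, h4, h5, h6, h7, h8, h9, h10⟩ :=
    Cy.core d hR hL (Cy.an_mer d hη.mer)
  refine ⟨⟨W, p, A, k, E, h1, hA, h2, h3, Set.ext fun x => (h4 x).not_left.symm, h5, h6⟩, lam, rfl,
    h7, ⟨fun a x b c => (h9 a x b (not_not.1 c)).1, fun a b x c e _ => h10 a b x c e,
      fun a x b => ?_⟩, fun a x b c => (h9 a x b c).2.1, fun a x x' b c => (h9 a x b c).2.2 x'⟩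
  obtain ⟨u, v, k1, k2, k3⟩ := h8 a x b
  have k4 := ((snc_thin_off h2).gen x).and (P277Z.gen_of_nhds k3)
  exact ⟨u, v, k1, k2, P277Z.nz_of_gen (k4.mono fun y c => (c.2 (not_not.1 c.1)).1),
    k4.mono fun y c => (mul_comm _ _).trans (c.2 (not_not.1 c.1)).2⟩

end Vale.Agent.P281Z.Bs
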