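import Vale.Agent.P281Z.Bs.Defs
import Vale.Agent.P271.H879.Null
import Vale.Agent.P267.H928.Int.Cplx
import Mathlib.MeasureTheory.Function.Jacobian

/-!
# P281Z, extension from the fibres: integrable densities pull back to coverings
-/

open scoped Manifold ContDiff Topology ENNReal
open Set Filter MeasureTheory Function
open Vale.Agent.P272.K
open Vale.Agent.P277Z (Hol at_chart)
open Vale.Agent.P281Z.Gt (LI)

noncomputable section

namespace Vale.Agent.P281Z.Bs

namespace PullA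

variable {n q : ℕ} {U T : Set (Cm n)} {F : Cm n → Cm n}

/-- a countable partition into measurable pieces on which the map is injective -/
theorem pieces (hU : IsOpen U) (hi : ∀ z ∈ U, ∃ N ∈ 𝓝 z, InjOn F N) :
    ∃ s : ℕ → Set (Cm n), (∀ j, MeasurableSet (s j)) ∧ Pairwise (Disjoint on s) ∧
      (∀ j, InjOn F (s j)) ∧ ⋃ j, s j = U := by
  have h : ∀ z, ∃ N, IsOpen N ∧ InjOn F N ∧ (z ∈ U → z ∈ N) := fun z => by
    by_cases hz : z ∈ U
    · obtain ⟨N, h1, h2⟩ := hi z hz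
      exact ⟨interior N, isOpen_interior, h2.mono interior_subset,
        fun _ => mem_interior_iff_mem_nhds.2 h1⟩
    · exact ⟨∅, isOpen_empty, injOn_empty _, fun k => (hz k).elim⟩
  choose N h1 h2 h3 using h
  obtain ⟨t, -, h4, h5⟩ := TopologicalSpace.countable_cover_nhdsWithin (f := N) (s := U)
    fun z hz => mem_nhdsWithin_of_mem_nhds ((h1 z).mem_nhds (h3 z hz))
  obtain ⟨f, hf⟩ := countable_iff_exists_subset_range.1 h4
  refine ⟨fun j => U ∩ disjointed (fun j => N (f j)) j, fun j => hU.measurableSet.inter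
    (MeasurableSet.disjointed (fun j => (h1 _).measurableSet) j), fun j k hjk =>
      (disjoint_disjointed _ hjk).mono inter_subset_right inter_subset_right,
    fun j => (h2 (f j)).mono (inter_subset_right.trans (disjointed_subset _ j)), ?_⟩
  rw [← inter_iUnion, iUnion_disjointed]
  refine inter_eq_left.2 fun z hz => ?_
  obtain ⟨a, ha, hza⟩ := mem_iUnion₂.1 (h5 hz)
  obtain ⟨j, rfl⟩ := hf ha
  exact mem_iUnion.2 ⟨j, hza⟩

/-- the change of variables for an injective holomorphic map -/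
theorem chg {s : Set (Cm n)} (hs : MeasurableSet s) (hF : ∀ z ∈ s, DifferentiableAt ℂ F z)
    (hi : InjOn F s) (g : Cm n → ℝ≥0∞) : MeasurableSet (F '' s) ∧ ∫⁻ o in F '' s, g o =
      ∫⁻ z in s, g (F z) * ‖LinearMap.det (fderiv ℂ F z : Cm n →ₗ[ℂ] Cm n)‖ₑ ^ 2 := by
  have h : ∀ z ∈ s, HasFDerivWithinAt F ((fderiv ℂ F z).restrictScalars ℝ) s z := fun z hz =>
    ((hF z hz).hasFDerivAt.restrictScalars ℝ).hasFDerivWithinAt
  refine ⟨measurable_image_of_fderivWithin hs h hi, ?_⟩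
  rw [lintegral_image_eq_lintegral_abs_det_fderiv_mul volume hs h hi]
  refine lintegral_congr fun z => ?_
  rw [P267.H928.Int.det_real, Complex.normSq_eq_norm_sq, abs_of_nonneg (sq_nonneg _),
    ENNReal.ofReal_pow (norm_nonneg _), ofReal_norm, mul_comm]

/-- maps with at most `q` preimages -/
theorem pull_le (hU : IsOpen U) (hF : ∀ z ∈ U, DifferentiableAt ℂ F z)
    (hi : ∀ z ∈ U, ∃ N ∈ 𝓝 z, InjOn F N)
    (hq : ∀ o, ∃ τ : Fin q → Cm n, ∀ z ∈ U, F z = o → z ∈ range τ) (hT : MapsTo F U T)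
    (g : Cm n → ℝ≥0∞) :
    ∫⁻ z in U, g (F z) * ‖LinearMap.det (fderiv ℂ F z : Cm n →ₗ[ℂ] Cm n)‖ₑ ^ 2 ≤
      q * ∫⁻ o in T, g o := by
  obtain ⟨s, h1, h2, h3, rfl⟩ := pieces hU hi
  have h4 := fun j => chg (h1 j) (fun z hz => hF z (mem_iUnion.2 ⟨j, hz⟩)) (h3 j) g
  rw [lintegral_iUnion h1 h2, ← tsum_congr fun j => (h4 j).2, ← lintegral_sum_measure,
    ← smul_eq_mul, ← lintegral_smul_measure]
  refine lintegral_mono' (Measure.le_iff.2 fun A hA => ?_) le_rfl
  rw [Measure.sum_apply _ hA, Measure.smul_apply, Measure.restrict_apply hA, smul_eq_mul,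
    tsum_congr fun j => (Measure.restrict_apply hA).trans
      (lintegral_indicator_one (hA.inter (h4 j).1)).symm,
    ← lintegral_tsum fun j => (measurable_one.indicator (hA.inter (h4 j).1)).aemeasurable]
  refine le_trans ?_ (mul_le_mul_right (lintegral_indicator_one_le _) _)
  rw [← lintegral_const_mul' _ _ (ENNReal.natCast_ne_top q)]
  refine lintegral_mono fun o => ?_
  obtain ⟨τ, hτ⟩ := hq o
  have h5 : ∀ j, (A ∩ F '' s j).indicator (1 : Cm n → ℝ≥0∞) o ≤
      ∑' i, (s j).indicator (fun _ => (A ∩ T).indicator 1 o) (τ i) := fun j => by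
    refine indicator_apply_le' ?_ fun _ => zero_le
    rintro ⟨a, z, hz, rfl⟩
    have hz' : z ∈ ⋃ j, s j := mem_iUnion.2 ⟨j, hz⟩
    obtain ⟨i, rfl⟩ := hτ z hz' rfl
    refine le_trans (le_of_eq ?_) (ENNReal.le_tsum i)
    rw [indicator_of_mem hz, indicator_of_mem (show F (τ i) ∈ A ∩ T from ⟨a, hT hz'⟩)]
  refine (ENNReal.tsum_le_tsum h5).trans ?_
  rw [ENNReal.tsum_comm]
  refine (ENNReal.tsum_le_tsum (g := fun _ => (A ∩ T).indicator 1 o) fun i => ?_).trans ?_
  · exact (congrFun (indicator_iUnion_of_pairwise_disjoint s h2 _) (τ i)).ge.trans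
      (indicator_le_self' (fun _ _ => zero_le) _)
  · simp

end PullA

open PullA in
/-- **PULLI** -/
theorem pulli : PULLI := by
  intro n q V C u w x hu hw e₁ he₁
  have he := at_chart (n := n) (C.p x)
  generalize chartAt (Cm n) (C.p x) = e at he
  obtain ⟨T, hT, hI⟩ := hu e he
  obtain ⟨g, g1, g2, g3⟩ := (snc_thin_off C.snc).nz x
  have hp := C.hol.cont.continuousAt (x := x)
  obtain ⟨r, hr, hB⟩ := Metric.eventually_nhds_iff_ball.1 ((g1 e₁ he₁).eventually_analyticAt.and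
    ((e₁.open_target.eventually_mem he₁.mem_target).and (at_ev he₁ ((hw e₁ e he₁ he).and
      (g3.and ((hp.eventually (at_near he)).and (((e.continuousAt he.2).comp hp).eventually_mem
        hT)))))))
  obtain ⟨z₀, hz₀, h0⟩ : ∃ z ∈ Metric.ball (e₁ x) r, g (e₁.symm z) ≠ 0 := by
    by_contra! k
    exact g2 ((P277Z.At.ev he₁).1 (mem_of_superset (Metric.ball_mem_nhds _ hr) k))
  have hO : IsOpen (Metric.ball (e₁ x) r ∩ e₁.symm ⁻¹' off C.E) :=
    (e₁.continuousOn_symm.mono fun z hz => (hB z hz).2.1).isOpen_inter_preimage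
      Metric.isOpen_ball (snc_open_off C.snc)
  have hA : ∀ z ∈ Metric.ball (e₁ x) r, At e₁ (e₁.symm z) := fun z hz =>
    ⟨he₁.1, e₁.map_target (hB z hz).2.1⟩
  refine ⟨_, Metric.ball_mem_nhds _ hr, (lintegral_mono_set' (t := Metric.ball (e₁ x) r ∩
    e₁.symm ⁻¹' off C.E) (ae_le_set.2 (measure_mono_null ?_
    (P271.H879.null_zeros volume (fun z hz =>
      (hB z hz).1.differentiableAt.differentiableWithinAt) hz₀ h0)))).trans_lt
    (((setLIntegral_mono' hO.measurableSet ?_).trans (pull_le (q := q)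
      (F := fun z => e (C.p (e₁.symm z))) hO ?_ ?_ ?_ ?_ fun o => u e (e.symm o))).trans_lt
      (ENNReal.mul_lt_top (ENNReal.natCast_lt_top q) hI))⟩
  · exact fun z hz => ⟨hz.1, (hB z hz.1).2.2.2.1 fun k => hz.2 ⟨hz.1, k⟩⟩
  · intro z hz
    have h1 := (hB z hz.1).2.2.1 hz.2
    rw [Cov.jac, dfM, LinearMap.det_toMatrix', df, e₁.right_inv (hB z hz.1).2.1] at h1
    rwa [e.left_inv (hB z hz.1).2.2.2.2.1.2]
  · intro z hz
    have h1 := ((C.hol.at _).an (hA z hz.1) (hB z hz.1).2.2.2.2.1).differentiableAt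
    rwa [e₁.right_inv (hB z hz.1).2.1] at h1
  · intro z hz
    obtain ⟨N, h1, h2⟩ := (C.imm _ hz.2).inj (C.hol.at _)
    exact ⟨_, inter_mem (Metric.isOpen_ball.mem_nhds hz.1)
      (e₁.continuousAt_symm (hB z hz.1).2.1 h1), fun a ha b hb k =>
        e₁.symm.injOn (hB a ha.1).2.1 (hB b hb.1).2.1 (h2 ha.2 hb.2
          (e.injOn (hB a ha.1).2.2.2.2.1.2 (hB b hb.1).2.2.2.2.1.2 k))⟩
  · intro o
    by_cases ho : e.symm o ∈ C.B
    · refine ⟨0, fun z hz k => ?_⟩
      rw [← k, e.left_inv (hB z hz.1).2.2.2.2.1.2] at ho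
      exact ((C.pre.le ho) hz.2).elim
    · obtain ⟨σ, -, h1⟩ := C.cvg _ ho
      refine ⟨fun i => e₁ (σ i (e.symm o)), fun z hz k => ?_⟩
      obtain ⟨i, hi⟩ := h1.self_of_nhds.2.ge (show C.p (e₁.symm z) = e.symm o by
        rw [← k, e.left_inv (hB z hz.1).2.2.2.2.1.2])
      exact ⟨i, (congrArg e₁ hi).trans (e₁.right_inv (hB z hz.1).2.1)⟩
  · exact fun z hz => (hB z hz.1).2.2.2.2.2

end Vale.Agent.P281Z.Bs
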