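import Vale.Agent.P281Z.Bs.Defs

/-!
# P281Z, extension from the fibres: pull back of forms, orders, division
-/

open scoped Manifold ContDiff Topology ENNReal
open Set Filter
open Vale.Agent.P272.K Vale.Agent.P285.H281.FD
open Vale.Agent.P277Z (Hol Mer Nz at_chart gen_of_nhds)
open Vale.Agent.P277Z.Slc (Snc)
open Vale.Agent.P277.HD (pull)
open Vale.Agent.P281Z.Gt (MS)

noncomputable section

namespace Vale.Agent.P281Z.Bs

theorem Cov.hol_jac {n q : ℕ} {V : Mf n} (C : Cov V q) {e₁ : Chart n C.W.X} {e : Chart n V.X}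
    {x : C.W.X} (h1 : At e₁ x) (h2 : At e (C.p x)) : Hol n (C.jac e₁ e) x :=
  hol_det fun a b => hol_dfM (C.hol.at x) h1 h2 a b

theorem tau : TAU := fun n q V C s hs => by
  have h0 : ∀ e₁ e, ∀ x ∈ off C.E, At e₁ x → At e (C.p x) →
      C.pb s e₁ x = s e x * C.jac e₁ e x := fun e₁ e x hx h1 h2 => by
    rw [Cov.pb, hs.chg _ e x (at_chart (C.p x)) h2 (not_not_intro hx), Cov.jac, Cov.jac,
      dfM_chg' (C.hol.at x) h1 (at_chart _) h2, Matrix.det_mul, mul_left_comm, ← mul_assoc]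
    rfl
  have h1 : ∀ e₁ x, At e₁ x → ∀ᶠ y in 𝓝 x, y ∈ off C.E → C.pb s e₁ y =
      s (chartAt (Cm n) (C.p x)) y * C.jac e₁ (chartAt (Cm n) (C.p x)) y := fun e₁ x he => by
    filter_upwards [at_near he,
      C.hol.cont.continuousAt.eventually (at_near (at_chart (n := n) (C.p x)))]
      with y k1 k2 k3 using h0 _ _ y k3 k1 k2
  refine ⟨⟨fun a x ha hx => ?_, fun a b x ha hb _ => ?_, fun a x ha => ?_⟩, fun e₁ e x hx k1 k2 =>
    ⟨(imm_iff_det (C.hol.at x) k1 k2).1 (C.imm x hx), h0 e₁ e x hx k1 k2⟩⟩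
  · refine ((hs.hol _ x (at_chart (C.p x)) hx).mul (C.hol_jac ha (at_chart _))).congr ?_
    filter_upwards [h1 a x ha, (Hyp.of_snc C.snc).isOpen.mem_nhds (not_not.1 hx)] with y k1 k2
      using (k1 k2).symm
  · show _ * (dfM _ _ _ _).det = _ * (_ * (dfM _ _ _ _).det)
    rw [dfM_chg (C.hol.at x) hb ha (at_chart _), Matrix.det_mul, ← mul_assoc, mul_comm]
    rfl
  · obtain ⟨u, v, k1, k2, k3, k4⟩ := hs.mer _ x (at_chart (C.p x))
    refine ⟨_, v, k1.mul (C.hol_jac ha (at_chart _)), k2, k3, ?_⟩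
    filter_upwards [k4, (Md.gn_off C.snc x).gen, gen_of_nhds (h1 a x ha)] with y m1 m2 m3
    rw [m3 m2, mul_right_comm, m1]

theorem ordm_of (hG : Gt.GROW) : ORDM := fun n W κ _ E L s hE hc hL hs h0 => by
  have hH := Hyp.of_snc hE
  obtain ⟨c, h1⟩ : ∃ c : ℝ, ∀ y ∈ (univ : Set W.X), ∃ a, y ∈ L.U a ∧
      BdP n id E (fun _ => c) (s a) y := by
    refine isCompact_univ.induction_on (p := fun S => ∃ c : ℝ, ∀ y ∈ S, ∃ a, y ∈ L.U a ∧
      BdP n id E (fun _ => c) (s a) y) ⟨0, fun _ k => k.elim⟩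
      (fun _ _ k m => m.imp fun _ m y hy => m y (k hy)) (fun _ _ ⟨c, k⟩ ⟨c', k'⟩ =>
        ⟨max c c', fun y hy => hy.elim
          (fun m => (k y m).imp fun _ r => ⟨r.1, r.2.mono continuousAt_id fun _ _ => le_max_left ..⟩)
          fun m => (k' y m).imp fun _ r =>
            ⟨r.1, r.2.mono continuousAt_id fun _ _ => le_max_right ..⟩⟩) fun x _ => ?_
    obtain ⟨a, ha⟩ := hL.cover x
    obtain ⟨ζ, hζ⟩ := hH x
    have k1 : ∀ᶠ y in 𝓝 x, y ∈ off E ↔ ∏ l, ζ l y ≠ 0 :=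
      (off_iff hζ).mono fun y hy => by rw [hy, Finset.prod_ne_zero_iff]; simp
    obtain ⟨K, g, k2, k3⟩ := hG n W.X (s a) (fun y => ∏ l, ζ l y) x (hs.mer a x ha)
      (Hol.prod _ fun l _ => (hζ l).hol)
      (fun k => hH.freq x ((k1.and k).mono fun y hy k' => hy.1.1 k' hy.2))
      ((k1.and (lb_near hL ha)).mono fun y hy k => hs.hol a y hy.2 (not_not_intro (hy.1.2 k)))
    have k4 := bdP_of_ext (u := s a) (k := fun _ => K) k2 hζ ((k1.and k3).mono fun y hy k => by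
      rw [hy.2 (hy.1.1 k), mul_comm, ← Finset.prod_pow]
      simp only [zpow_natCast])
    exact ⟨_, mem_nhdsWithin_of_mem_nhds
      ((lb_near hL ha).and (k4.near hH (.of_forall fun _ => continuousAt_id))), _,
      fun y hy => ⟨a, hy⟩⟩
  have h2 : SecP n n id univ L E (fun _ => c) s := secP_of_loc hL isOpen_univ
    (fun a x _ ha hx => hs.hol a x ha (not_not_intro hx))
    (fun a b x _ ha hb hx => hs.chg a b x ha hb (not_not_intro hx)) h1
  exact (h2.ord hE hL isOpen_univ (fun l => by simpa using (hc l).isPreconnected) fun x _ =>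
    closure_mono (fun y hy => And.intro hy fun a ha => h0 a y ha hy) (hH.dense x)).imp
      fun _ m a x => m a x trivial

/-- the poles of the inverse -/
theorem ord_inv {n : ℕ} {X : Type} [TopologicalSpace X] [ChartedSpace (Cm n) X]
    [IsManifold 𝓘(ℂ, Cm n) ω X] {κ : Type} [Fintype κ] {G : κ → Set X} {k : κ → ℤ} {u : X → ℂ}
    {x : X} (hG : Snc n G) (h : OrdAt n G k u x)
    (hu : ∀ᶠ y in 𝓝 x, y ∈ off G → Hol n (fun z => (u z)⁻¹) y) :
    BdP n id G (fun l => k l) (fun z => (u z)⁻¹) x := by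
  have hH := Hyp.of_snc hG
  refine bdP_codim1 hG (c := fun l => k l) (fun l _ => lt_add_one _) hu
    ((h.near hH).mono fun y hy l hl _ => ?_)
  obtain ⟨ζ, hζ⟩ := hH y
  obtain ⟨b, h1, -, h3, h4⟩ := hy ζ hζ
  refine ((h4 l hl).and_eventually ((eventually_all.2 fun l => (hζ l).near).and
    (h1.near.and h3.eventually_nhds))).mono fun z ⟨⟨m1, m2⟩, m3, m4, m5⟩ => ⟨m1, ?_⟩
  refine (((bdP_mono continuousAt_id m3 fun l => -k l).cmul (m4.inv m2).cont).congr
    (m5.mono fun w r1 r2 => ?_)).mono continuousAt_id fun _ _ => by simp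
  rw [r1 r2, mul_inv, ← Finset.prod_inv_distrib]
  simp only [zpow_neg, id]

theorem quo : QUO := fun n W κ _ E K L t k s c hE hK hL ht h0 ho hs => by
  have hO := (Hyp.of_snc hE).isOpen
  choose ψ hψ using fun b => glue hK (fun a x => s (a, b) x * (t a x)⁻¹)
    (fun x => x ∈ L.U b ∧ x ∈ off E) fun a a' x ha ha' hx => by
      rw [hs.chg (a, b) (a', b) x trivial ⟨ha, hx.1⟩ ⟨ha', hx.1⟩ hx.2,
        ht.chg a a' x ha ha' (not_not_intro hx.2)]
      show K.g a a' x * L.g b b x * _ * _ = _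
      rw [lb_self hL hx.1, mul_one, mul_inv, mul_mul_mul_comm,
        mul_inv_cancel₀ (hK.ne_zero a a' x ha ha'), one_mul]
  have key : ∀ a b x, x ∈ K.U a → x ∈ L.U b → ∀ᶠ y in 𝓝 x, y ∈ off E →
      ψ b y = s (a, b) y * (t a y)⁻¹ := fun a b x ha hb => by
    filter_upwards [lb_near hK ha, lb_near hL hb] with y k1 k2 k3 using hψ b a y k1 ⟨k2, k3⟩
  have hi : ∀ a, ∀ x ∈ K.U a, x ∈ off E → Hol n (fun z => (t a z)⁻¹) x := fun a x ha hx =>
    (ht.hol a x ha (not_not_intro hx)).inv (h0 a x ha hx)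
  refine ⟨ψ, ⟨fun b x _ hb hx => ?_, fun b b' x _ hb hb' hx => ?_, fun b x _ hb => ?_⟩,
    fun a b x hx ha hb => by
      rw [hψ b a x ha ⟨hb, hx⟩, mul_left_comm, mul_inv_cancel₀ (h0 a x ha hx), mul_one]⟩
  all_goals obtain ⟨a, ha⟩ := hK.cover x
  · refine ((hs.hol (a, b) x trivial ⟨ha, hb⟩ hx).mul (hi a x ha hx)).congr ?_
    filter_upwards [key a b x ha hb, hO.mem_nhds hx] with y k1 k2 using (k1 k2).symm
  · rw [hψ b a x ha ⟨hb, hx⟩, hψ b' a x ha ⟨hb', hx⟩,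
      hs.chg (a, b) (a, b') x trivial ⟨ha, hb⟩ ⟨ha, hb'⟩ hx]
    show K.g a a x * L.g b b' x * _ * _ = _
    rw [lb_self hK ha, one_mul, mul_assoc]
  · exact ((hs.bdP (a := (a, b)) trivial ⟨ha, hb⟩).mul continuousAt_id (ord_inv hE (ho a x ha)
      ((lb_near hK ha).mono fun y => hi a y))).congr (key a b x ha hb)

end Vale.Agent.P281Z.Bs
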