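import Vale.Agent.P281Z.Bs.Defs

/-!
# P281Z, extension from the fibres: poles along some of the components only
-/

open scoped Manifold ContDiff Topology
open Set Filter
open Vale.Agent.P272.K Vale.Agent.P285.H281.FD
open Vale.Agent.P277Z (Hol)
open Vale.Agent.P277Z.Slc (Snc LEq isLB_can)

noncomputable section

namespace Vale.Agent.P281Z.Bs

namespace Bw

variable {n : ℕ} {X : Type} [TopologicalSpace X] [ChartedSpace (Cm n) X] {κ : Type}
  {E : κ → Set X} {P : κ → Prop} {x : X}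

theorem cpl (hE : Snc n E) {ξ : {l // P l} → X → ℂ} (h : ∀ l : {l // P l}, LEq n (E l) x (ξ l)) :
    ∃ ζ : κ → X → ℂ, (∀ l, LEq n (E l) x (ζ l)) ∧ ξ = fun l => ζ l.1 := by
  classical
  obtain ⟨ζ, hζ, -⟩ := hE x
  refine ⟨fun l => if k : P l then ξ ⟨l, k⟩ else ζ l, fun l => ?_, funext fun l => by
    simp only [dif_pos l.2]⟩
  by_cases k : P l
  · simpa only [dif_pos k] using h ⟨l, k⟩
  · simpa only [dif_neg k] using hζ l

theorem snc (hE : Snc n E) : Snc n fun l : {l // P l} => E l := fun x =>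
  let ⟨ζ, h1, h2⟩ := hE x
  ⟨fun l => ζ l, fun l => h1 l, h2.comp (fun l : {l : {l // P l} // x ∈ E l} => ⟨l.1.1, l.2⟩)
    fun _ _ e => Subtype.ext (Subtype.ext (congrArg (·.1) e))⟩

theorem reg {r : ℕ} {Y : Type} [TopologicalSpace Y] [ChartedSpace (Cm r) Y] {f : X → Y} {y : Y}
    (hE : Snc n E) (h : RegAt n r f E y) : RegAt n r f (fun l : {l // P l} => E l) y := by
  intro x hx e he ξ hξ
  obtain ⟨ζ, h1, rfl⟩ := cpl hE hξ
  have := (h x hx e he ζ h1).comp
    (Sum.map (fun l : {l : {l // P l} // x ∈ E l} => (⟨l.1.1, l.2⟩ : {l // x ∈ E l})) id)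
    (Function.Injective.sumMap (fun _ _ e => Subtype.ext (Subtype.ext (congrArg (·.1) e)))
      Function.injective_id)
  exact (congrArg (P277Z.Slc.Ind n · x) (funext fun a => by cases a <;> rfl)).mp this

theorem wt [Fintype κ] {c : κ → ℝ} [Fintype {l // c l = 1}] (hc : ∀ l, c l = 0 ∨ c l = 1)
    (a : κ → ℝ) : ∏ l, a l ^ c l = ∏ l : {l // c l = 1}, a l ^ (1 : ℝ) := by
  classical
  rw [← Fintype.prod_subtype_mul_prod_subtype (fun l => c l = 1),
    Finset.prod_eq_one (s := Finset.univ) (f := fun l : {l // ¬ c l = 1} => a l ^ c l)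
      fun l _ => by rw [(hc l).resolve_right l.2, Real.rpow_zero], mul_one]
  exact Finset.prod_congr (congrArg (@Finset.univ _) (Subsingleton.elim _ _))
    fun l _ => congrArg (a l ^ ·) l.2

end Bw

open Bw in
theorem b3w_of (h : B3R) : B3W := by
  classical
  intro n r W κ _ E c S f y O s hW hE hc hf hr hO hy hs
  have hL : IsLB n (KH n S f) := lb_mul isLB_can (hf.lb (lb_pow S.lb _))
  have hD := snc (P := fun l => c l = 1) hE
  have k0 : off E ⊆ off fun l : {l // c l = 1} => E l := fun x hx l => hx l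
  obtain ⟨t, t1, t2, t3⟩ := ((hs.res (O' := O ∩ off fun l : {l // c l = 1} => E l)
    inter_subset_left).mono' (c' := fun _ => 0) continuous_id fun l x hx hl =>
      ((hc l).resolve_right fun e => hx.2 ⟨l, e⟩ hl).le).ext hE hL
      (hO.inter (Hyp.of_snc hD).isOpen) fun _ => zero_lt_one
  obtain ⟨s', h1, h2⟩ := h n r W _ _ S f y O t hW hD hf (reg hE hr) hO hy
    ⟨fun a x a1 a2 a3 => t1 a x ⟨a1, a3⟩ a2, fun a b x a1 a2 a3 a4 => t2 a b x ⟨a1, a4⟩ a2 a3,
      fun a x a1 a2 ξ hξ => by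
        obtain ⟨ζ, z1, rfl⟩ := cpl hE hξ
        obtain ⟨C, hC⟩ := hs.bd a x a1 a2 ζ z1
        refine ⟨C, ?_⟩
        filter_upwards [hC.eventually_nhds, hO.mem_nhds a1, lb_near hL a2,
          eventually_all.2 fun l => (z1 l).hol.near] with z b1 b2 b3 b4 b5
        refine mem_Iic.1 <| isClosed_Iic.mem_of_frequently_of_tendsto (f := fun z => ‖t a z‖ *
          ∏ l : {l // c l = 1}, ‖ζ l z‖ ^ (1 : ℝ)) ((((Hyp.of_snc hE).freq z).and_eventually
            (b1.and ((hO.eventually_mem b2).and (lb_near hL b3)))).mono fun v ⟨d1, d2, d3, d4⟩ => ?_)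
          ((t1 a z ⟨b2, b5⟩ b3).cont.norm.mul (tendsto_finsetProd _ fun l _ =>
            (b4 l).cont.norm.rpow_const (.inr zero_le_one)))
        rw [mem_Iic, t3 a v ⟨d3, k0 d1⟩ d4 d1, ← wt hc fun l => ‖ζ l v‖]
        exact d2 d1⟩
  refine ⟨s', ⟨fun a x a1 a2 a3 => h1.hol a x a1 a2 (k0 a3),
    fun a b x a1 a2 a3 a4 => h1.chg a b x a1 a2 a3 (k0 a4), fun a x a1 a2 ζ hζ => ?_⟩,
    fun a x a1 a2 a3 => (h2 a x (k0 a1) a2 a3).trans (t3 a x ⟨hy a2, k0 a1⟩ a3 a1)⟩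
  obtain ⟨C, hC⟩ := h1.bd a x a1 a2 (fun l => ζ l) fun l => hζ l
  refine ⟨C, hC.mono fun z b1 b2 => ?_⟩
  rw [wt hc fun l => ‖ζ l (id z)‖]
  exact b1 (k0 b2)

end Vale.Agent.P281Z.Bs
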