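import Vale.Agent.P281Z.Bs.Defs
import Vale.Agent.P281Z.Mf.An

/-!
# P281Z, extension from the fibres: integrable densities push forward
-/

open scoped Manifold ContDiff Topology ENNReal
open Set Filter MeasureTheory
open Vale.Agent.P272.K Vale.Agent.P285.H281.FD
open Vale.Agent.P277Z (Hol at_chart)
open Vale.Agent.P281Z.Gt (LI)

noncomputable section

namespace Vale.Agent.P281Z.Bs

namespace Push

variable {n : ℕ} {s : Set (Cm n)} {F : Cm n → Cm n} {u g : Cm n → ℝ≥0∞}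

theorem sep (hs : MeasurableSet s) {P : Cm n → Prop} (h : MeasurableSet {z : s | P z}) :
    MeasurableSet {z ∈ s | P z} := by
  rw [show {z ∈ s | P z} = Subtype.val '' {z : s | P z} from Set.ext fun z =>
    ⟨fun k => ⟨⟨z, k.1⟩, k.2, rfl⟩, fun ⟨w, b, k⟩ => k ▸ ⟨w.2, b⟩⟩]
  exact hs.subtype_image h

theorem det_rs (A : Cm n →L[ℂ] Cm n) :
    ENNReal.ofReal |(A.restrictScalars ℝ : Cm n →L[ℝ] Cm n).det| = ‖A.det‖ₑ ^ 2 := by
  rw [show (A.restrictScalars ℝ : Cm n →L[ℝ] Cm n).det =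
      LinearMap.det ((A : Cm n →ₗ[ℂ] Cm n).restrictScalars ℝ) from rfl,
    LinearMap.det_restrictScalars, Algebra.norm_complex_apply, Complex.normSq_eq_norm_sq,
    abs_of_nonneg (sq_nonneg _), ENNReal.ofReal_pow (norm_nonneg _), ofReal_norm]

/-- the change of variables for a map which need not be injective -/
theorem img_le (hs : MeasurableSet s) (hF : ∀ z ∈ s, DifferentiableAt ℂ F z) (hu : Measurable u) :
    ∫⁻ z in F '' s, u z ≤ ∫⁻ z in s, u (F z) * ‖(fderiv ℂ F z).det‖ₑ ^ 2 := by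
  refine Measurable.ennreal_induction (motive := fun u =>
    ∫⁻ z in F '' s, u z ≤ ∫⁻ z in s, u (F z) * ‖(fderiv ℂ F z).det‖ₑ ^ 2)
    (fun c A hA => ?_) (fun f f' _ hf _ k k' => ?_) (fun f hf hm k => ?_) hu
  · have h1 : MeasurableSet {z ∈ s | F z ∈ A} := sep hs
      ((continuousOn_iff_continuous_domRestrict.1 fun z hz =>
        (hF z hz).continuousAt.continuousWithinAt).measurable hA)
    have h2 := addHaar_image_le_lintegral_abs_det_fderiv volume h1 fun z hz =>
      ((hF z hz.1).hasFDerivAt.restrictScalars ℝ).hasFDerivWithinAt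
    rw [lintegral_indicator_const hA, Measure.restrict_apply hA, ← image_preimage_inter,
      inter_comm]
    refine (mul_le_mul_right h2 c).trans ((lintegral_const_mul_le _ _).trans
      ((setLIntegral_mono' h1 fun z hz => ?_).trans (lintegral_mono_set fun z hz => hz.1)))
    rw [det_rs, indicator_of_mem hz.2]
  · simp only [Pi.add_apply, add_mul, lintegral_add_left hf]
    exact (add_le_add k k').trans (le_lintegral_add _ _)
  · rw [lintegral_iSup hf hm]
    exact iSup_le fun i => (k i).trans (lintegral_mono fun z =>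
      mul_le_mul_left (le_iSup (fun i => f i (F z)) i) _)

theorem push_le (hs : MeasurableSet s) (hF : ∀ z ∈ s, DifferentiableAt ℂ F z) (hu : Measurable u)
    (hg : ∀ z ∈ s, ContinuousAt g z) :
    ∫⁻ z in F '' {z ∈ s | u (F z) * ‖(fderiv ℂ F z).det‖ₑ ^ 2 ≤ g z}, u z ≤ ∫⁻ z in s, g z := by
  have h1 : MeasurableSet {z ∈ s | u (F z) * ‖(fderiv ℂ F z).det‖ₑ ^ 2 ≤ g z} :=
    sep hs (measurableSet_le ((hu.comp (continuousOn_iff_continuous_domRestrict.1 fun z hz =>
      (hF z hz).continuousAt.continuousWithinAt).measurable).mul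
      (((ContinuousLinearMap.continuous_det.measurable.comp (measurable_fderiv ℂ F)).comp
        measurable_subtype_coe).enorm.pow_const 2))
      (continuousOn_iff_continuous_domRestrict.1 fun z hz => (hg z hz).continuousWithinAt).measurable)
  exact (img_le h1 (fun z hz => hF z hz.1) hu).trans
    ((setLIntegral_mono' h1 fun z hz => hz.2).trans (lintegral_mono_set fun z hz => hz.1))

theorem wlog (k : ∀ v : Cm n → ℝ≥0∞, Measurable v → v ≤ u → ∫⁻ z in s, v z < ⊤) :
    ∫⁻ z in s, u z < ⊤ :=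
  let ⟨v, k1, k2, k3⟩ := exists_measurable_le_lintegral_eq (volume.restrict s) u
  k3 ▸ k v k1 k2

/-- thin sets are null -/
theorem thin_ae {X : Type} [TopologicalSpace X] [ChartedSpace (Cm n) X] {B : Set X} (h : Thin n B)
    {y : X} {e : Chart n X} (he : At e y) :
    ∃ U ∈ 𝓝 (e y), ∀ᵐ z, z ∈ U → e.symm z ∉ B := by
  obtain ⟨a, h1, h2, h3⟩ := h.nz y
  obtain ⟨R, hR, -, h4⟩ := P301.H98.exists_log_integrable (h1 e he) fun k =>
    h2 ((P277Z.At.ev he (p := fun y => a y = 0)).1 k)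
  refine ⟨_, inter_mem (Metric.ball_mem_nhds _ hR) (at_ev he h3), ?_⟩
  filter_upwards [(ae_restrict_iff' measurableSet_ball).1 h4] with z k1 k2 k3
  exact k1 k2.1 (k2.2 k3)

end Push

theorem pushi : PUSHI := by
  intro n q V C u w y h1 h2 e he
  have h3 : ∀ x : C.p ⁻¹' {y}, ∃ N : Set C.W.X, IsOpen N ∧ x.1 ∈ N ∧
      ∫⁻ z in chartAt (Cm n) x.1 '' N, w (chartAt (Cm n) x.1) ((chartAt (Cm n) x.1).symm z) < ⊤ ∧
      ∀ x' ∈ N, At (chartAt (Cm n) x.1) x' ∧ At e (C.p x') ∧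
        (x' ∈ off C.E → ContinuousAt (w (chartAt (Cm n) x.1)) x') := fun x => by
    have hc := at_chart (n := n) x.1
    obtain ⟨U, hU, hw⟩ := (h1 x.1 x.2).1 _ hc
    obtain ⟨N, k1, k2, k3⟩ := eventually_nhds_iff.1 (((at_near hc).and
      (((C.hol.at x.1).cont.eventually (at_near (x.2.symm ▸ he))).and
        ((h1 x.1 x.2).2 _ hc))).and (((chartAt (Cm n) x.1).continuousAt hc.2).eventually hU))
    exact ⟨N, k2, k3, (lintegral_mono_set (image_subset_iff.2 fun x' hx' => (k1 x' hx').2)).trans_lt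
      hw, fun x' hx' => (k1 x' hx').1⟩
  choose N hN hxN hw hP using h3
  obtain ⟨t, ht⟩ := (isClosed_singleton.preimage C.hol.cont).isCompact.elim_finite_subcover N hN
    fun x hx => mem_iUnion.2 ⟨⟨x, hx⟩, hxN _⟩
  have h4 := C.hol.cont.isClosedMap.eventually_nhds_fiber (p := fun x => x ∈ ⋃ i ∈ t, N i) y
    fun x hx => (isOpen_biUnion fun i _ => hN i).mem_nhds (ht hx)
  obtain ⟨U, hU, hB⟩ := Push.thin_ae C.thin he
  refine ⟨_, inter_mem (inter_mem hU he.nhds_target) (at_ev he (h4.and (h2 e he))), ?_⟩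
  refine Push.wlog fun v hv hvu => ?_
  have ho : IsOpen (off C.E) := isClosed_compl_iff.1 (C.pre ▸ C.thin.closed.preimage C.hol.cont)
  let c := fun i : t => chartAt (Cm n) i.1.1
  let F := fun (i : t) z => e (C.p ((c i).symm z))
  have h5 : ∀ i : t, ∫⁻ z in F i '' {z ∈ c i '' (N i ∩ off C.E) |
      v (F i z) * ‖(fderiv ℂ (F i) z).det‖ₑ ^ 2 ≤ w (c i) ((c i).symm z)}, v z < ⊤ := fun i => by
    refine (Push.push_le ((c i).isOpen_image_of_subset_source ((hN i).inter ho)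
      fun x hx => (hP i x hx.1).1.2).measurableSet ?_ hv ?_).trans_lt
      ((lintegral_mono_set (image_mono inter_subset_left)).trans_lt (hw i))
    · rintro _ ⟨x, hx, rfl⟩
      exact ((C.hol.at x).an (hP i x hx.1).1 (hP i x hx.1).2.1).differentiableAt
    · rintro _ ⟨x, hx, rfl⟩
      have k := (hP i x hx.1).1
      exact ContinuousAt.comp (g := w (c i)) (by rw [k.left_inv]; exact (hP i x hx.1).2.2 hx.2)
        ((c i).continuousAt_symm ((c i).map_source k.2))
  refine (lintegral_mono_set' ?_).trans_lt ((lintegral_iUnion_le _ v).trans_lt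
    ((tsum_fintype _).trans_lt (ENNReal.sum_lt_top.2 fun i _ => h5 i)))
  filter_upwards [hB] with z k1 k2
  obtain ⟨x, k3, k4⟩ := k2.2.2 (k1 k2.1.1)
  obtain ⟨i, hi, k5⟩ := mem_iUnion₂.1 (k2.2.1 x k3)
  have k6 : F ⟨i, hi⟩ (c ⟨i, hi⟩ x) = z := by
    show e (C.p ((c ⟨i, hi⟩).symm (c ⟨i, hi⟩ x))) = z
    rw [(hP i x k5).1.left_inv, k3, e.right_inv k2.1.2]
  refine mem_iUnion.2 ⟨⟨i, hi⟩, _, ⟨⟨x, ⟨k5, not_not.1 fun k => k1 k2.1.1 ?_⟩, rfl⟩, ?_⟩, k6⟩
  · rw [← k3]
    exact C.pre.ge k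
  · rw [k6, (hP i x k5).1.left_inv]
    refine (mul_le_mul_left (hvu z) _).trans (le_of_eq_of_le ?_ (k4 _ (hP i x k5).1))
    rw [Cov.jac, dfM, LinearMap.det_toMatrix']
    rfl

end Vale.Agent.P281Z.Bs
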