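import Vale.Agent.P281Z.Bs.Defs
import Vale.Agent.P271.Inst.Null

/-!
# P281Z, extension from the fibres: traces of sections, thin sets are null
-/

open scoped Manifold ContDiff Topology
open Set Filter MeasureTheory
open Vale.Agent.P272.K Vale.Agent.P285.H281.FD
open Vale.Agent.P277Z (Hol Mer Nz at_chart gen_le_nhds)
open Vale.Agent.P277Z.Slc (Snc)
open Vale.Agent.P281Z.Gt (MS)

noncomputable section

namespace Vale.Agent.P281Z

section mer

variable {n : ℕ} {X : Type} [TopologicalSpace X] [ChartedSpace (Cm n) X]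
  [IsManifold 𝓘(ℂ, Cm n) ω X] {κ : Type} [Fintype κ] {G : κ → Set X} {c : κ → ℝ}

/-- functions with poles along a divisor are meromorphic -/
theorem BdP.mer {u : X → ℂ} {x : X} (hG : Snc n G) (h : BdP n id G c u x)
    (hu : ∀ᶠ y in 𝓝 x, y ∈ off G → Hol n u y) : Mer n u x := by
  obtain ⟨ζ, hζ, -⟩ := hG x
  obtain ⟨b, hb, k⟩ := h.ext (k := fun l => (⌈c l⌉₊ : ℕ)) hG
    (fun l _ => by have := Nat.le_ceil (c l); push_cast; linarith) hu hζ
  refine ⟨b, fun y => ∏ l, ζ l y ^ ⌈c l⌉₊, hb, .prod _ fun l _ => (hζ l).hol.pow _, fun m => ?_, ?_⟩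
  · obtain ⟨y, h1, h2, h3⟩ := (((Hyp.of_snc hG).freq x).and_eventually (m.and (off_iff hζ))).exists
    exact Finset.prod_ne_zero_iff.2 (fun l _ => pow_ne_zero _ (h3.1 h1 l)) h2
  · filter_upwards [(snc_thin_off hG).gen x, k.filter_mono (gen_le_nhds x)] with y h1 h2
    rw [h2 (not_not.1 h1)]
    simp only [zpow_natCast]

theorem SecP.ms {L : Bd X} {s : L.ι → X → ℂ} (hG : Snc n G) (hL : IsLB n L)
    (h : SecP n n id univ L G c s) : MS n (off G)ᶜ L s :=
  ⟨fun a x ha k => h.hol a x trivial ha (not_not.1 k),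
    fun a b x ha hb k => h.chg a b x trivial ha hb (not_not.1 k),
    fun _ _ ha => (h.bdP trivial ha).mer hG (h.ev hL isOpen_univ trivial ha)⟩

end mer

namespace PS

variable {r : ℕ} (S : PS r) {q : S.P.X} {h : S.H.ι}

theorem hx_mem (q : S.P.X) : q ∈ S.H.U (S.lb.cover q).choose := (S.lb.cover q).choose_spec

theorem hx_eq (hq : q ∈ S.H.U h) : ∃ t : ℂ, t ≠ 0 ∧ S.hx q = t • S.x h q :=
  ⟨_, S.lb.ne_zero _ h q (S.hx_mem q) hq, funext fun a => (S.sec a).change _ h q (S.hx_mem q) hq⟩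

theorem hx_ne (hq : q ∈ S.H.U h) : S.hx q 0 ≠ 0 ↔ S.x h q 0 ≠ 0 := by
  obtain ⟨t, ht, k⟩ := S.hx_eq hq
  simp [k, ht]

theorem aff_eq (hq : q ∈ S.H.U h) (j : Fin r) : S.aff q j = S.x h q j.succ / S.x h q 0 := by
  obtain ⟨t, ht, k⟩ := S.hx_eq hq
  simp only [aff, k, Pi.smul_apply, smul_eq_mul, mul_div_mul_left _ _ ht]

theorem hx_near (hq : S.hx q 0 ≠ 0) : ∀ᶠ y in 𝓝 q, S.hx y 0 ≠ 0 := by
  filter_upwards [lb_near S.lb (S.hx_mem q), (sec_hol (S.sec 0) (S.hx_mem q)).ne_near hq]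
    with y h1 h2 using (S.hx_ne h1).2 h2

theorem aff_hol (hq : S.hx q 0 ≠ 0) (j : Fin r) : Hol r (fun y => S.aff y j) q := fun e he =>
  (((sec_hol (S.sec j.succ) (S.hx_mem q)).div (sec_hol (S.sec 0) (S.hx_mem q)) hq) e he).congr
    (at_ev he ((lb_near S.lb (S.hx_mem q)).mono fun _ k => (S.aff_eq k j).symm))

theorem aff_cont (hq : S.hx q 0 ≠ 0) : ContinuousAt S.aff q :=
  continuousAt_pi.2 fun j => (S.aff_hol hq j).cont

theorem pt_aff (hq : S.hx q 0 ≠ 0) : S.pt (Fin.cons 1 (S.aff q)) = q := by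
  refine Eq.trans (congrArg _ (funext fun a => ?_)) (S.pt_x _ q _ (S.hx_mem q) (inv_ne_zero hq))
  refine Fin.cases (inv_mul_cancel₀ hq).symm (fun j => ?_) a
  exact div_eq_inv_mul _ _

theorem cons_ne (c : Cm r) : (Fin.cons 1 c : Cm (r + 1)) ≠ 0 := fun k =>
  one_ne_zero (congrFun k 0)

theorem aff_pt (c : Cm r) :
    S.hx (S.pt (Fin.cons 1 c)) 0 ≠ 0 ∧ S.aff (S.pt (Fin.cons 1 c)) = c := by
  obtain ⟨t, k⟩ := S.x_pt _ (cons_ne c) _ (S.hx_mem _)
  have ht : t ≠ 0 := fun m => S.xnz _ _ (S.hx_mem _) (by rw [k, m, zero_smul])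
  have k' : S.hx (S.pt (Fin.cons 1 c)) = t • (Fin.cons 1 c : Cm (r + 1)) := k
  exact ⟨by simpa [k'] using ht, funext fun j => by simp [aff, k', ht]⟩

theorem cons_an (c : Cm r) : AnalyticAt ℂ (fun c : Cm r => (Fin.cons 1 c : Cm (r + 1))) c :=
  .pi fun a => Fin.cases analyticAt_const
    (fun j => (ContinuousLinearMap.proj (R := ℂ) (φ := fun _ : Fin r => ℂ) j).analyticAt c) a

theorem ptc_cont (c : Cm r) : ContinuousAt (fun c : Cm r => S.pt (Fin.cons 1 c)) c :=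
  (S.cont _ (cons_ne c)).comp (cons_an c).continuousAt

theorem ptc_an {c : Cm r} {g : S.P.X → ℂ} (hg : Hol r g (S.pt (Fin.cons 1 c))) :
    AnalyticAt ℂ (fun c : Cm r => g (S.pt (Fin.cons 1 c))) c := by
  have he := at_chart (n := r) (S.pt (Fin.cons 1 c))
  refine ((hg _ he).comp_of_eq ((S.an _ (cons_ne c) _ he).comp (cons_an c)) rfl).congr ?_
  exact ((S.ptc_cont c).eventually (P277Z.At.left he)).mono fun _ k => congrArg g k

end PS

namespace Bs

theorem trace_of (hN : Gt.NORM) : TRACE := fun n q V C L s c hL hs => by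
  have m := hs.ms C.snc (C.hol.lb hL)
  have o : ∀ x, C.p x ∉ C.B → x ∉ (off C.E)ᶜ := fun x k => C.pre ▸ k
  have h := fun a y (ha : y ∈ L.U a) => hN n q C.W V C.p C.B (s a) y C.hol C.thin
    (C.pre ▸ (snc_thin_off C.snc).dense) C.cvg (fun x k => m.mer a x (k ▸ ha :))
    ((lb_near hL ha).mono fun _ k k' x hx => m.hol a x (hx ▸ k :) (o x (hx ▸ k')))
  refine ⟨fun a y ha k => ((h a y ha).2.2.self_of_nhds k).2, fun a b y ha hb k => ?_,
    fun a y ha => (h a y ha).2.1⟩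
  rw [Cov.tr, Cov.tr, mul_finsum_mem]
  refine finsum_mem_congr rfl fun x hx => ?_
  obtain rfl : C.p x = y := hx
  exact m.chg a b x ha hb (o x k)

theorem thae : THAE := fun r S Q hQ => by
  have h : volume {c : Cm r | S.pt (Fin.cons 1 c) ∈ Q} = 0 := by
    refine measure_null_of_locally_null _ fun c _ => ?_
    obtain ⟨g, h1, h2, h3⟩ := hQ.nz (S.pt (Fin.cons 1 c))
    obtain ⟨k1, k2⟩ := S.aff_pt c
    obtain ⟨ε, hε, k⟩ := P271.Inst.exists_null (S.ptc_an h1) fun m => h2 (by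
      rw [← k2] at m
      filter_upwards [(S.aff_cont k1).eventually m, S.hx_near k1] with y a b
      rwa [S.pt_aff b] at a)
    refine ⟨_, ?_, k⟩
    filter_upwards [nhdsWithin_le_nhds (Metric.ball_mem_nhds c hε), self_mem_nhdsWithin,
      nhdsWithin_le_nhds ((S.ptc_cont c).eventually h3)] with y a b d using ⟨a, d b⟩
  filter_upwards [compl_mem_ae_iff.2 h] with c hc y hy k m
  exact hc (show S.pt _ ∈ Q by rwa [← k, S.pt_aff hy])

end Bs

end Vale.Agent.P281Z
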