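import Vale.Agent.P281Z.Bs.Main
import Vale.Agent.P281Z.Bs.B3w
import Vale.Agent.P281Z.Bs.Push
import Vale.Agent.P281Z.Bs.Pull
import Vale.Agent.P281Z.Bs.Tr
import Vale.Agent.P281Z.Bs.Lord
import Vale.Agent.P281Z.Bs.Lint
import Vale.Agent.P281Z.Bs.Ord
import Vale.Agent.P281Z.Gl.Cov
import Vale.Agent.P281Z.Gl.Loc
import Vale.Agent.P281Z.Gl.Bd
import Vale.Agent.P281Z.Nt.Neat

/-!
# P281Z, block Bs: the assembly of the extension theorem from the rows
-/

namespace Vale.Agent.P281Z.Bs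

/-- the extension theorem from the cyclic cover and the surjectivity of the restriction -/
theorem ext1_cyc (hR : Rs.RES) (cyc : CYC) (h3 : B3R) : Gt.EXT1 :=
  ext1_of cyc tau (ordm_of Gt.grow) quo (trace_of Gt.norm) pulli pushi lord lint thae (b3w_of h3)
    genS (Gt.vert_of hR genS) Gt.zero

end Vale.Agent.P281Z.Bs
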