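import Vale.Agent.P281Z.Gt.SkT
import Vale.Agent.P281Z.Sc.Ord
import Vale.Agent.P281Z.Mf.Adj

/-!
# P281Z, extension from the fibres: cyclic coverings, traces, integrability (statements)
-/

open scoped Manifold ContDiff Topology ENNReal
open Set Filter MeasureTheory
open Vale.Agent.P272.K Vale.Agent.P285.H281.FD
open Vale.Agent.P277Z (Hol Mer Nz)
open Vale.Agent.P277Z.Slc (Snc)
open Vale.Agent.P277.HD (pull)
open Vale.Agent.P281Z.Gt (MS LI Cvg)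

noncomputable section

namespace Vale.Agent.P281Z.Bs

/-- a covering with `q` sheets which is unramified over the complement of `B` -/
structure Cov {n : ℕ} (V : Mf n) (q : ℕ) : Type 1 where
  W : Mf n
  p : W.X → V.X
  B : Set V.X
  k : ℕ
  E : Fin k → Set W.X
  hol : HolM n n p
  thin : Thin n B
  snc : Snc n E
  conn : ∀ l, IsConnected (E l)
  pre : p ⁻¹' B = (off E)ᶜ
  imm : ∀ x ∈ off E, Imm n n p x
  cvg : Cvg n p B q

namespace Cov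

variable {n q : ℕ} {V : Mf n} (C : Cov V q)

/-- the Jacobian determinant -/
def jac (e₁ : Chart n C.W.X) (e : Chart n V.X) (x : C.W.X) : ℂ := (dfM C.p e₁ e x).det

/-- the form of top degree which is given by a section of `p^* K` -/
def pb (s : Chart n V.X → C.W.X → ℂ) (e₁ : Chart n C.W.X) (x : C.W.X) : ℂ :=
  s (chartAt (Cm n) (C.p x)) x * C.jac e₁ (chartAt (Cm n) (C.p x)) x

/-- the trace -/
def tr {ι : Type} (s : ι → C.W.X → ℂ) (a : ι) (y : V.X) : ℂ := ∑ᶠ x ∈ C.p ⁻¹' {y}, s a x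

end Cov

/-- **CYC**: the cyclic covering `λ ^ q = η` -/
def CYC : Prop := ∀ (n q : ℕ) (V : Mf n) (L : Bd V.X) (A : Set V.X) (η : L.ι → V.X → ℂ),
  IsLB n L → 0 < q → Thin n A → MS n A (L.pow q) η → (∀ a, ∀ y ∈ L.U a, y ∉ A → η a y ≠ 0) →
  ∃ (C : Cov V q) (lam : L.ι → C.W.X → ℂ), C.B = A ∧ (V.Kah → C.W.Kah) ∧
    MS n (off C.E)ᶜ (pull C.p L) lam ∧
    (∀ a x, C.p x ∈ L.U a → x ∈ off C.E → lam a x ^ q = η a (C.p x)) ∧
    ∀ a x x', C.p x ∈ L.U a → x ∈ off C.E → C.p x' = C.p x → lam a x' = lam a x → x' = x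

/-- **TAU**: the pull back of forms -/
def TAU : Prop := ∀ (n q : ℕ) (V : Mf n) (C : Cov V q) (s : Chart n V.X → C.W.X → ℂ),
  MS n (off C.E)ᶜ (pull C.p (Bd.can n V.X)) s → MS n (off C.E)ᶜ (Bd.can n C.W.X) (C.pb s) ∧
    ∀ e₁ e, ∀ x ∈ off C.E, At e₁ x → At e (C.p x) →
      C.jac e₁ e x ≠ 0 ∧ C.pb s e₁ x = s e x * C.jac e₁ e x

/-- **ORDM**: the orders of a meromorphic section without zeros off the divisor -/
def ORDM : Prop := ∀ (n : ℕ) (W : Mf n) (κ : Type) [Fintype κ] (E : κ → Set W.X) (L : Bd W.X)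
  (s : L.ι → W.X → ℂ), Snc n E → (∀ l, IsConnected (E l)) → IsLB n L → MS n (off E)ᶜ L s →
  (∀ a, ∀ x ∈ L.U a, x ∈ off E → s a x ≠ 0) → ∃ k : κ → ℤ, ∀ a, ∀ x ∈ L.U a, OrdAt n E k (s a) x

/-- **QUO**: division by such a section -/
def QUO : Prop := ∀ (n : ℕ) (W : Mf n) (κ : Type) [Fintype κ] (E : κ → Set W.X) (K L : Bd W.X)
  (t : K.ι → W.X → ℂ) (k : κ → ℤ) (s : (K.mul L).ι → W.X → ℂ) (c : κ → ℝ), Snc n E → IsLB n K →
  IsLB n L → MS n (off E)ᶜ K t → (∀ a, ∀ x ∈ K.U a, x ∈ off E → t a x ≠ 0) →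
  (∀ a, ∀ x ∈ K.U a, OrdAt n E k (t a) x) → SecP n n id univ (K.mul L) E c s →
  ∃ ψ, SecP n n id univ L E (fun l => c l + k l) ψ ∧
    ∀ a b, ∀ x ∈ off E, x ∈ K.U a → x ∈ L.U b → s (a, b) x = t a x * ψ b x

/-- **TRACE**: the trace of a section with poles along the divisor is meromorphic -/
def TRACE : Prop := ∀ (n q : ℕ) (V : Mf n) (C : Cov V q) (L : Bd V.X) (s : L.ι → C.W.X → ℂ)
  (c : Fin C.k → ℝ), IsLB n L → SecP n n id univ (pull C.p L) C.E c s → MS n C.B L (C.tr s)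

/-- **PULLI**: integrable densities pull back -/
def PULLI : Prop := ∀ (n q : ℕ) (V : Mf n) (C : Cov V q) (u : Chart n V.X → V.X → ℝ≥0∞)
  (w : Chart n C.W.X → C.W.X → ℝ≥0∞) (x : C.W.X), LI n u (C.p x) →
  (∀ e₁ e, At e₁ x → At e (C.p x) → ∀ᶠ x' in 𝓝 x, x' ∈ off C.E →
    w e₁ x' ≤ u e (C.p x') * ‖C.jac e₁ e x'‖ₑ ^ 2) → LI n w x

/-- **PUSHI**: integrable densities push forward -/
def PUSHI : Prop := ∀ (n q : ℕ) (V : Mf n) (C : Cov V q) (u : Chart n V.X → V.X → ℝ≥0∞)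
  (w : Chart n C.W.X → C.W.X → ℝ≥0∞) (y : V.X),
  (∀ x, C.p x = y → LI n w x ∧ ∀ e₁, At e₁ x → ∀ᶠ x' in 𝓝 x, x' ∈ off C.E →
    ContinuousAt (w e₁) x') →
  (∀ e, At e y → ∀ᶠ y' in 𝓝 y, y' ∉ C.B → ∃ x', C.p x' = y' ∧ ∀ e₁, At e₁ x' →
    u e y' * ‖C.jac e₁ e x'‖ₑ ^ 2 ≤ w e₁ x') → LI n u y

/-- **LORD**: integrability bounds the orders -/
def LORD : Prop := ∀ (n : ℕ) (W : Mf n) (κ : Type) [Fintype κ] (E : κ → Set W.X) (k : κ → ℤ)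
  (τ : Chart n W.X → W.X → ℂ) (x : W.X), Snc n E → (∀ e, At e x → OrdAt n E k (τ e) x) →
  (LI n (fun e y => ‖τ e y‖ₑ ^ 2) x → ∀ l, x ∈ E l → 0 ≤ k l) ∧
  ∀ h, Hol n h x → Nz h x → (∀ η : ℝ, 0 < η → LI n (fun e y => ‖τ e y‖ₑ ^ 2 * ‖h y‖ₑ ^ η) x) →
    ∀ l, x ∈ E l → -1 ≤ k l

/-- **LINT**: logarithmic poles are almost integrable -/
def LINT : Prop := ∀ (n : ℕ) (W : Mf n) (κ : Type) [Fintype κ] (E : κ → Set W.X) (c : κ → ℝ)
  (σ : Chart n W.X → W.X → ℂ) (h : W.X → ℂ) (x : W.X), Snc n E →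
  (∀ e, At e x → BdP n id E c (σ e) x) → (∀ l, c l ≤ 1) → Hol n h x →
  (∀ l, 0 < c l → ∀ᶠ y in 𝓝 x, y ∈ E l → h y = 0) →
  ∀ η : ℝ, 0 < η → LI n (fun e y => ‖σ e y‖ₑ ^ 2 * ‖h y‖ₑ ^ η) x

/-- **THAE**: thin subsets of the projective space are null -/
def THAE : Prop := ∀ (r : ℕ) (S : PS r) (Q : Set S.P.X), Thin r Q →
  ∀ᵐ c : Cm r, ∀ y, S.hx y 0 ≠ 0 → S.aff y = c → y ∉ Q

/-- `K + (r + 1) H` -/
abbrev KH (n : ℕ) {r : ℕ} {W : Mf n} (S : PS r) (f : W.X → S.P.X) : Bd W.X :=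
  (Bd.can n W.X).mul (pull f (S.H.pow (r + 1)))

/-- **B3R**: logarithmic forms extend from a regular fibre -/
def B3R : Prop := ∀ (n r : ℕ) (W : Mf n) (κ : Type) [Fintype κ] (D : κ → Set W.X) (S : PS r)
  (f : W.X → S.P.X) (y : S.P.X) (O : Set W.X) (s : (KH n S f).ι → W.X → ℂ), W.Kah → Snc n D →
  HolM n r f → RegAt n r f D y → IsOpen O → f ⁻¹' {y} ⊆ O →
  SecP n n id O (KH n S f) D (fun _ => 1) s →
  ∃ s', SecP n n id univ (KH n S f) D (fun _ => 1) s' ∧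
    ∀ a, ∀ x ∈ off D, f x = y → x ∈ (KH n S f).U a → s' a x = s a x

/-- **B3W**: the same, with poles along some of the components only -/
def B3W : Prop := ∀ (n r : ℕ) (W : Mf n) (κ : Type) [Fintype κ] (E : κ → Set W.X) (c : κ → ℝ)
  (S : PS r) (f : W.X → S.P.X) (y : S.P.X) (O : Set W.X) (s : (KH n S f).ι → W.X → ℂ), W.Kah →
  Snc n E → (∀ l, c l = 0 ∨ c l = 1) → HolM n r f → RegAt n r f E y → IsOpen O → f ⁻¹' {y} ⊆ O →
  SecP n n id O (KH n S f) E c s → ∃ s', SecP n n id univ (KH n S f) E c s' ∧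
    ∀ a, ∀ x ∈ off E, f x = y → x ∈ (KH n S f).U a → s' a x = s a x

end Vale.Agent.P281Z.Bs
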