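import Vale.Agent.P281Z.Bs.All
import Vale.Agent.P281Z.Bs.Cyc
import Vale.Agent.P281Z.Rs.All

/-!
# P281Z, block Bs: the extension theorem from the surjectivity of the restriction
-/

namespace Vale.Agent.P281Z.Bs

/-- cyclic coverings exist -/
theorem cyc : CYC := cyc_of Rs.res

/-- the extension theorem from the surjectivity of the restriction -/
theorem ext1_b3r (h3 : B3R) : Gt.EXT1 := ext1_cyc Rs.res cyc h3

end Vale.Agent.P281Z.Bs
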