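import Vale.Agent.P281Z.Bs.Pre

/-!
# P281Z, extension from the fibres of a map to a projective space
-/

open scoped Manifold ContDiff Topology ENNReal
open Set Filter MeasureTheory
open Vale.Agent.P272.K Vale.Agent.P285.H281.FD
open Vale.Agent.P277Z (Hol Mer Nz at_chart hol_const gen_le_nhds)
open Vale.Agent.P277Z.Lo (mer_mul mer_div mer_of_hol mer_congr)
open Vale.Agent.P277Z.Slc (isLB_can)
open Vale.Agent.P277.HD (pull)
open Vale.Agent.P281Z.Gt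

noncomputable section

namespace Vale.Agent.P281Z.Bs

namespace Mn

variable {n r q M N : ℕ} {V : Mf n} {S : PS r} {φ : V.X → S.P.X} {A B : Set V.X}
  {ξ Θ : Chart n V.X → V.X → ℂ}

theorem zero_of (h : ZERO) [ConnectedSpace V.X] (hA : Thin n A)
    (hξ : MS n A ((Bd.can n V.X).pow M) ξ) (h0 : ∃ e v, At e v ∧ v ∉ A ∧ ξ e v ≠ 0) :
    ∃ B, A ⊆ B ∧ Thin n B ∧ ∀ e v, At e v → v ∉ B → ξ e v ≠ 0 := by
  have k : ∀ e v, At e v → v ∉ A → (ξ (chartAt (Cm n) v) v = 0 ↔ ξ e v = 0) := fun e v he hv => by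
    rw [hξ.chg _ e v (at_chart v) he hv, mul_eq_zero,
      or_iff_right ((lb_pow isLB_can M).ne_zero _ _ _ (at_chart v) he)]
  obtain ⟨e, v, h1, h2, h3⟩ := h0
  exact ⟨A ∪ {v | ξ (chartAt (Cm n) v) v = 0}, subset_union_left, h n V A _ inferInstance hA
    (fun x => ⟨ξ (chartAt (Cm n) x), hξ.mer _ x (at_chart x), (at_near (at_chart x)).mono
      fun y a b => ⟨hξ.hol _ y a b, k _ y a b⟩⟩) ⟨v, h2, mt (k e v h1 h2).1 h3⟩,
    fun e v a b => mt (k e v a fun c => b (Or.inl c)).2 fun c => b (Or.inr c)⟩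

theorem eta {a : ℕ} (hN : M * q = q + N * a) (hB : A ⊆ B) (hξ : MS n A ((Bd.can n V.X).pow M) ξ)
    (hΘ : MS n A ((Bd.can n V.X).pow N) Θ) (h0 : ∀ e v, At e v → v ∉ A → Θ e v ≠ 0) :
    MS n B ((Bd.can n V.X).pow q) fun e v => ξ e v ^ q / Θ e v ^ a := by
  refine ⟨fun e v he hv => ((hξ.hol e v he (mt (@hB v) hv)).pow q).div
    ((hΘ.hol e v he (mt (@hB v) hv)).pow a) (pow_ne_zero _ (h0 e v he (mt (@hB v) hv))),
    fun e e' v he he' hv => ?_,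
    fun e v he => mer_div (mer_pow (hξ.mer e v he) q) (mer_pow (hΘ.mer e v he) a)⟩
  have g := (isLB_can (n := n)).ne_zero e e' v he he'
  rw [hξ.chg e e' v he he' (mt (@hB v) hv), hΘ.chg e e' v he he' (mt (@hB v) hv)]
  simp only [Bd.pow, mul_pow, ← pow_mul, hN, pow_add]
  rw [mul_assoc, mul_div_assoc, mul_div_mul_left _ _ (pow_ne_zero _ g)]

/-- the factor -/
def chi (φ : V.X → S.P.X) (T : S.H.ι → V.X → ℂ) (c : ℂ) (v : V.X) : ℂ :=
  c * T (Ps.ix S (φ v)) v / S.hx (φ v) 0 ^ (r + 1)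

theorem ms_chi (hφ : HolM n r φ) (hB : Thin n B) {T : S.H.ι → V.X → ℂ}
    (hT : MS n B (pull φ (S.H.pow (r + 1))) T) (c : ℂ) :
    Mr n (B ∪ φ ⁻¹' {y | S.hx y 0 = 0}) (chi φ T c) := by
  have e : ∀ v, ∀ᶠ y in 𝓝 v, y ∉ B → c * T (Ps.ix S (φ v)) y / S.x (Ps.ix S (φ v)) (φ y) 0 ^ (r + 1) =
      chi φ T c y := fun v => by
    filter_upwards [hφ.cont.continuousAt.eventually (lb_near S.lb (Ps.ix_mem S (φ v)))] with y a b
    rw [chi, hT.chg _ _ y (Ps.ix_mem S _) a b, Ps.hx_eq S a, Pi.smul_apply, smul_eq_mul, mul_pow,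
      mul_left_comm]
    exact (mul_div_mul_left _ _ (pow_ne_zero _ (Ps.g_ne S a))).symm
  have h := fun v => (hφ.hol (S.xhol (Ps.ix_mem S (φ v)) 0)).pow (r + 1)
  refine ⟨fun v hv => (((hol_const c v).mul (hT.hol _ v (Ps.ix_mem S _) fun a => hv (Or.inl a))).div
    (h v) (pow_ne_zero _ fun a => hv (Or.inr a))).congr ?_, fun v => mer_congr (mer_div (mer_mul
      (mer_of_hol (hol_const c v)) (hT.mer _ v (Ps.ix_mem S _))) (mer_of_hol (h v))) ?_⟩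
  · filter_upwards [e v, hB.closed.isOpen_compl.mem_nhds fun a => hv (Or.inl a)] with y a b using a b
  · filter_upwards [gen_le_nhds v (e v), hB.gen v] with y a b using a b

variable (C : Cov V q) {u : Chart n V.X → V.X → ℝ≥0∞} {τ : Chart n C.W.X → C.W.X → ℂ}
  {k : Fin C.k → ℤ}

/-- `|τ|²` is the pull back of the density `u` -/
def Pd (u : Chart n V.X → V.X → ℝ≥0∞) (τ : Chart n C.W.X → C.W.X → ℂ) : Prop :=
  ∀ e₁ e, ∀ x ∈ off C.E, At e₁ x → At e (C.p x) → ‖τ e₁ x‖ₑ ^ 2 = u e (C.p x) * ‖C.jac e₁ e x‖ₑ ^ 2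

variable {C}

theorem Pd.li (h : Pd C u τ) (hP : PULLI) {g : V.X → ℝ≥0∞} {x : C.W.X}
    (hu : LI n (fun e y => u e y * g y) (C.p x)) :
    LI n (fun e y => ‖τ e y‖ₑ ^ 2 * g (C.p y)) x := hP n q V C _ _ x hu fun e₁ e a b => by
  filter_upwards [at_near a, C.hol.cont.continuousAt.eventually (at_near b)] with y c d hy
  rw [h e₁ e y hy c d, mul_right_comm]

theorem Pd.lc (h : Pd C u τ) (hP : PULLI) (hL : LORD) (hk : ∀ e x, At e x → OrdAt n C.E k (τ e) x)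
    {x : C.W.X} (hu : Gt.Lc n u (C.p x)) (l : Fin C.k) (hl : x ∈ C.E l) : -1 ≤ k l :=
  let ⟨_, h1, h2, h3⟩ := hu
  (hL n C.W _ C.E k τ x C.snc fun e => hk e x).2 _ (C.hol.hol h1) (C.nz h1 h2)
    (fun η hη => h.li hP (h3 η hη)) l hl

theorem Pd.van (h : Pd C u τ) (hP : PULLI) (hL : LORD) (hk : ∀ e x, At e x → OrdAt n C.E k (τ e) x)
    {x : C.W.X} {g : V.X → ℂ} (hu : ∀ᶠ y in 𝓝 (C.p x), g y ≠ 0 → LI n u y) (l : Fin C.k)
    (hl : k l < 0) : ∀ᶠ y in 𝓝 x, y ∈ C.E l → g (C.p y) = 0 := by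
  filter_upwards [C.hol.cont.continuousAt.eventually hu] with y a b
  by_contra c
  refine hl.not_ge ((hL n C.W _ C.E k τ y C.snc fun e => hk e y).1 ?_ l b)
  simpa only [mul_one] using h.li hP (g := fun _ => 1) (by simpa only [mul_one] using a c)

theorem keep (hP : PULLI) (hQ : PUSHI) (hL : LORD) (hI : LINT) (hq : 0 < q) (hφ : HolM n r φ)
    {ε : ℝ} (h : Pd C (dens ξ Θ ε) τ) (hk : ∀ e x, At e x → OrdAt n C.E k (τ e) x)
    {s : Chart n C.W.X × S.H.ι → C.W.X → ℂ} {ψ : S.H.ι → C.W.X → ℂ}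
    (hs : SecP n n id univ (KH n S fun x => φ (C.p x)) C.E (fun l => if k l < 0 then 1 else 0) s)
    (hψ : ∀ e b, ∀ x ∈ off C.E, At e x → φ (C.p x) ∈ S.H.U b → s (e, b) x = τ e x * ψ b x) :
    Keep n (dens ξ Θ ε) fun e y => dens (fun e y => chi φ (C.tr ψ) (q : ℂ)⁻¹ y * ξ e y) Θ ε e y *
      ENNReal.ofReal (S.hw (φ y)) ^ (2 * (r + 1) : ℕ) := by
  intro y₀ g hg hu η hη
  have cf := (hφ.comp C.hol).cont
  set σ := fun (b : S.H.ι) e x => s (e, b) x / (‖S.x b (φ (C.p x))‖ : ℂ) ^ (r + 1) with hσ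
  have e1 : ∀ x e, At e x → ∀ᶠ z in 𝓝 x, z ∈ off C.E →
      ‖σ (Ps.ix S (φ (C.p z))) e z‖ = ‖σ (Ps.ix S (φ (C.p x))) e z‖ := fun x e he => by
    filter_upwards [at_near he, cf.continuousAt.eventually (lb_near S.lb (Ps.ix_mem S _))]
      with z a b c
    have k1 : s (e, Ps.ix S (φ (C.p z))) z = (Bd.can n C.W.X).g e e z * S.H.g (Ps.ix S (φ (C.p z)))
        (Ps.ix S (φ (C.p x))) (φ (C.p z)) ^ (r + 1) * s (e, Ps.ix S (φ (C.p x))) z :=
      hs.chg (e, _) (e, _) z trivial ⟨a, Ps.ix_mem S _⟩ ⟨a, b⟩ c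
    simp only [hσ, k1, lb_self isLB_can a, one_mul, S.x_chg (Ps.ix_mem S _) b, norm_div, norm_mul, norm_pow, norm_smul,
      Complex.norm_real, norm_norm, mul_pow]
    exact mul_div_mul_left _ _ (pow_ne_zero _ (norm_ne_zero_iff.2 (Ps.g_ne S b)))
  have c1 : ∀ x b, φ (C.p x) ∈ S.H.U b →
      ContinuousAt (fun z => ((‖S.x b (φ (C.p z))‖ : ℂ) ^ (r + 1))⁻¹) x := fun x b hb =>
    ((Complex.continuous_ofReal.continuousAt.comp ((Ps.cont_x S hb).comp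
      (f := fun z => φ (C.p z)) cf.continuousAt)).pow _).inv₀
      (pow_ne_zero _ (Complex.ofReal_ne_zero.2 (norm_ne_zero_iff.2 (S.xnz _ _ hb))))
  refine hQ n q V C _ (fun e x => ‖σ (Ps.ix S (φ (C.p x))) e x‖ₑ ^ 2 * ‖g (C.p x)‖ₑ ^ η) y₀
    (fun x hx => ?_) fun e he => ?_
  · subst hx
    refine ⟨hI n C.W _ C.E (fun l => if k l < 0 then 1 else 0) _ _ x C.snc (fun e he => ?_)
      (fun l => by split_ifs <;> simp) (C.hol.hol hg) (fun l hl => h.van hP hL hk hu l ?_) η hη,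
      fun e he => ?_⟩
    · exact ((hs.bdP (a := (e, Ps.ix S _)) trivial ⟨he, Ps.ix_mem S _⟩).cmul
        (c1 x _ (Ps.ix_mem S _))).of_le 1 ((e1 x e he).mono fun z a b =>
          ((a b).trans ((congrArg norm (div_eq_inv_mul _ _)).trans (one_mul _).symm)).le)
    · by_contra c
      simp [c] at hl
    · filter_upwards [at_near he, (C.hol.hol hg).near] with z a b c
      have c2 : ContinuousAt (σ (Ps.ix S (φ (C.p z))) e) z :=
        (hs.hol (e, _) z trivial ⟨a, Ps.ix_mem S _⟩ c).cont.mul (c1 z _ (Ps.ix_mem S _))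
      refine ContinuousAt.congr (f := fun x => ‖σ (Ps.ix S (φ (C.p z))) e x‖ₑ ^ 2 *
        ‖g (C.p x)‖ₑ ^ η) (ENNReal.Tendsto.mul (ENNReal.Tendsto.pow c2.enorm) (Or.inr
          (ENNReal.rpow_ne_top_of_nonneg hη.le enorm_ne_top)) (ENNReal.continuous_rpow_const.continuousAt.comp
          b.cont.enorm) (Or.inr (ENNReal.pow_ne_top enorm_ne_top))) ?_
      filter_upwards [e1 z e a, (snc_open_off C.snc).mem_nhds c] with w d1 d2
      rw [← ofReal_norm, ← d1 d2, ofReal_norm]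
  · filter_upwards [at_near he] with y a b
    obtain ⟨t, h1, h2⟩ := C.sheets b
    obtain ⟨i, hi⟩ := mean_le hq fun j => ψ (Ps.ix S (φ y)) (t j)
    refine ⟨t i, h1 i, fun e₁ he₁ => ?_⟩
    have k1 : t i ∈ off C.E := C.off_iff.2 (by rwa [h1])
    have k2 := h e₁ e _ k1 he₁ (by rwa [h1])
    have k3 := hψ e₁ _ _ k1 he₁ (Ps.ix_mem S _)
    simp only [hσ, k3]
    rw [h1] at k2 ⊢
    exact final (norm_nonneg _) (h2 _ ψ _ ▸ hi) k2

end Mn

open Mn in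
/-- **EXT1** -/
theorem ext1_of (cyc : CYC) (tau : TAU) (ordm : ORDM) (quo : QUO) (trace : TRACE) (hP : PULLI)
    (hQ : PUSHI) (hL : LORD) (hI : LINT) (thae : THAE) (b3w : B3W) (hG : GEN) (vert : VERT)
    (zero : ZERO) : EXT1 := by
  intro n r M N V S φ ε A ξ Θ O hc hK hφ hv hM hε hN hA hξ hΘ h0 hO hlc
  by_cases hz : ∃ e v, At e v ∧ v ∉ A ∧ ξ e v ≠ 0
  swap
  · obtain ⟨Q, h1, h2⟩ := vert n r V S.P φ A hφ hA
    filter_upwards [thae r S Q h1] with c a _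
    refine ⟨fun _ _ => 0, A, Subset.rfl, hA, ⟨fun _ v _ _ => hol_const 0 v,
      fun _ _ _ _ _ _ => (mul_zero _).symm, fun _ v _ => mer_of_hol (hol_const 0 v)⟩,
      fun v b1 b2 => ⟨h2 v (a _ b1 b2), fun b e he => by_contra fun d => hz ⟨e, v, he, b, Ne.symm d⟩⟩,
      fun x h _ _ η _ e _ => ⟨univ, univ_mem, by simp [dens]⟩⟩
  obtain ⟨B, hB, tB, hξ0⟩ := zero_of zero hA hξ hz
  obtain ⟨a, ha⟩ := Int.eq_ofNat_of_zero_le (Rat.num_nonneg.2 hε)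
  have e1 : ε * ε.den = a := by rw [Rat.mul_den_eq_num, ha, Int.cast_natCast]
  have e2 : M * ε.den = ε.den + N * a := by
    have : (M : ℚ) * ε.den = ε.den + N * a := by linear_combination N * e1 - ε.den * hN
    exact_mod_cast this
  have hΘ0 := fun e v he (hv : v ∉ B) => h0 e v he (mt (@hB v) hv)
  obtain ⟨C, lam, rfl, kW, m1, m2, -⟩ := cyc n ε.den V _ B _ isLB_can ε.pos tB (eta e2 hB hξ hΘ h0)
    fun e v he hv => div_ne_zero (pow_ne_zero _ (hξ0 e v he hv)) (pow_ne_zero _ (hΘ0 e v he hv))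
  obtain ⟨t1, t2⟩ := tau n _ V C lam m1
  have pd : Pd C (dens ξ Θ ε) (C.pb lam) := fun e₁ e x hx a1 a2 => by
    rw [(t2 e₁ e x hx a1 a2).2, enorm_mul, mul_pow, root ε.pos (hΘ0 e _ a2 (C.off_iff.1 hx))
      (ε := ε) (by exact_mod_cast e1) (m2 e x a2 hx), dens]
  have t0 : ∀ e, ∀ x ∈ (Bd.can n C.W.X).U e, x ∈ off C.E → C.pb lam e x ≠ 0 := fun e x a1 hx => by
    obtain ⟨b1, b2⟩ := t2 e _ x hx a1 (at_chart _)
    refine b2 ▸ mul_ne_zero (fun d => ?_) b1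
    have := m2 _ x (at_chart _) hx
    rw [d, zero_pow ε.pos.ne'] at this
    exact div_ne_zero (pow_ne_zero _ (hξ0 _ _ (at_chart _) (C.off_iff.1 hx)))
      (pow_ne_zero _ (hΘ0 _ _ (at_chart _) (C.off_iff.1 hx))) this.symm
  obtain ⟨k, hk⟩ := ordm n C.W _ C.E _ _ C.snc C.conn isLB_can t1 t0
  have hf := hφ.comp C.hol
  have tI : Thin n (φ ⁻¹' {y | S.hx y 0 = 0}) := Thin.pre_of_ex (Ps.an_inf S) hφ hv
  obtain ⟨Q₁, q1, q2⟩ := hG n r C.W S.P _ _ C.E hf C.snc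
  obtain ⟨Q₂, q3, q4⟩ := vert n r V S.P φ _ hφ (tB.union tI)
  filter_upwards [thae r S _ (q1.union q3)] with c a1 a2
  obtain ⟨y1, y2⟩ := Ps.pt_cons S c
  have s1 : SecP n n id ((fun x => φ (C.p x)) ⁻¹' {y | S.hx y 0 ≠ 0 ∧ S.aff y ∈ O}) (Bd.can n C.W.X)
      C.E (fun l => if k l < 0 then 1 else 0) (C.pb lam) :=
    ⟨fun e x _ b c => t1.hol e x b (not_not.2 c), fun e e' x _ b b' c => t1.chg e e' x b b' (not_not.2 c),
      fun e x d b => (hk e x b).bdP (Hyp.of_snc C.snc) fun l hl => by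
        have : (-1 : ℝ) ≤ k l := by exact_mod_cast pd.lc hP hL hk (hlc _ d.1 d.2) l hl
        split_ifs with h
        · linarith
        · exact_mod_cast (zero_add (k l)).symm ▸ not_lt.1 h⟩
  obtain ⟨s, s2, s3⟩ := b3w n r C.W _ C.E (fun l => if k l < 0 then 1 else 0) S _ _ _ _ (kW hK) C.snc
    (fun l => by split_ifs <;> simp) hf (q2 _ fun d => a1 _ y1 y2 (Or.inl d))
    ((Ps.isOpen_aff S hO).preimage hf.cont) (fun x (d : _ = _) => ⟨d ▸ y1, by rwa [d, y2]⟩)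
    ((s1.mul continuous_id ((secP_of_sec (c := fun _ => 0) continuous_id (hf.sec (S.sec 0))
      fun _ => le_rfl).pow continuous_id (r + 1))).mono continuous_id fun l => by simp)
  obtain ⟨ψ, p1, p2⟩ := quo n C.W _ C.E _ _ _ k s _ C.snc isLB_can (hf.lb (lb_pow S.lb _)) t1 t0 hk s2
  have mc := ms_chi hφ tB (trace n _ V C (pull φ (S.H.pow (r + 1))) ψ _ (hφ.lb (lb_pow S.lb _)) p1)
    (ε.den : ℂ)⁻¹
  have sb : A ⊆ C.B ∪ φ ⁻¹' {y | S.hx y 0 = 0} := hB.trans subset_union_left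
  refine ⟨_, _, sb, tB.union tI, ⟨fun e v b d => (mc.hol v d).mul (hξ.hol e v b (mt (@sb v) d)),
    fun e e' v b b' d => by rw [hξ.chg e e' v b b' (mt (@sb v) d), mul_left_comm],
    fun e v b => mer_mul (mc.mer v) (hξ.mer e v b)⟩, fun v b1 b2 =>
      ⟨q4 v fun d => a1 _ b1 b2 (Or.inr d), fun d e _ => ?_⟩, keep hP hQ hL hI ε.pos hφ pd hk s2 p2⟩
  obtain ⟨t, h1, h2⟩ := C.sheets fun b => d (Or.inl b)
  have : ∀ i, ψ (Ps.ix S (φ v)) (t i) = S.hx (φ v) 0 ^ (r + 1) := fun i => by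
    have k1 : t i ∈ off C.E := C.off_iff.2 (by rw [h1]; exact fun b => d (Or.inl b))
    have k2 : φ (C.p (t i)) ∈ S.H.U (Ps.ix S (φ v)) := by rw [h1]; exact Ps.ix_mem S _
    exact (mul_left_cancel₀ (t0 _ _ (at_chart _) k1) ((p2 _ _ _ k1 (at_chart _) k2).symm.trans
      (s3 (_, _) _ k1 (by rw [h1, ← b2, Ps.pt_aff S b1]) ⟨at_chart _, k2⟩))).trans (by rw [h1]; rfl)
  have k : (ε.den : ℂ)⁻¹ * ∑ i, ψ (Ps.ix S (φ v)) (t i) = S.hx (φ v) 0 ^ (r + 1) := by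
    simp only [this, Finset.sum_const, Finset.card_fin, nsmul_eq_mul]
    rw [inv_mul_cancel_left₀ (Nat.cast_ne_zero.2 ε.pos.ne')]
  exact (congrArg (· * ξ e v) ((div_eq_one_iff_eq (pow_ne_zero _ b1)).2
    ((congrArg _ (h2 _ ψ _)).trans k))).trans (one_mul _)

end Vale.Agent.P281Z.Bs
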