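import Vale.Agent.P281Z.Bs.Defs
import Vale.Agent.P281Z.Pb.Api
import Vale.Agent.P277Z.Lo.Base

/-!
# P281Z, extension from the fibres: affine coordinates, sheets, densities
-/

open scoped Manifold ContDiff Topology ENNReal
open Set Filter MeasureTheory
open Vale.Agent.P272.K Vale.Agent.P285.H281.FD
open Vale.Agent.P277Z (Hol Mer Nz at_chart hol_const)
open Vale.Agent.P277Z.Lo (mer_mul mer_div mer_of_hol mer_congr)
open Vale.Agent.P277.HD (pull)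
open Vale.Agent.P281Z.Gt (MS LI Cvg dens)

noncomputable section

namespace Vale.Agent.P281Z.Bs

namespace Ps

variable {r : ℕ} (S : PS r) {y y' : S.P.X} {b : S.H.ι}

/-- the chosen frame -/
def ix (y : S.P.X) : S.H.ι := (S.lb.cover y).choose

theorem ix_mem (y : S.P.X) : y ∈ S.H.U (ix S y) := (S.lb.cover y).choose_spec

theorem hx_eq (h : y ∈ S.H.U b) : S.hx y = S.H.g (ix S y) b y • S.x b y := S.x_chg (ix_mem S y) h

theorem g_ne (h : y ∈ S.H.U b) : S.H.g (ix S y) b y ≠ 0 := S.lb.ne_zero _ _ _ (ix_mem S y) h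

theorem hx_ne (y : S.P.X) : S.hx y ≠ 0 := S.xnz _ _ (ix_mem S y)

theorem hx_iff (h : y ∈ S.H.U b) : S.hx y 0 = 0 ↔ S.x b y 0 = 0 := by
  rw [hx_eq S h, Pi.smul_apply, smul_eq_mul, mul_eq_zero, or_iff_right (g_ne S h)]

theorem aff_eq (h : y ∈ S.H.U b) : S.aff y = fun j => S.x b y j.succ / S.x b y 0 :=
  funext fun j => by rw [PS.aff, hx_eq S h, smul_ratio (g_ne S h)]

theorem pt_aff (h : S.hx y 0 ≠ 0) : S.pt (Fin.cons 1 (S.aff y)) = y := by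
  refine (congrArg S.pt (funext fun j => ?_)).trans (S.pt_x _ y _ (ix_mem S y) (inv_ne_zero h))
  refine Fin.cases (inv_mul_cancel₀ h).symm (fun j => ?_) j
  exact div_eq_inv_mul _ _

theorem pt_cons (c : Cm r) :
    S.hx (S.pt (Fin.cons 1 c)) 0 ≠ 0 ∧ S.aff (S.pt (Fin.cons 1 c)) = c := by
  have h : (Fin.cons 1 c : Cm (r + 1)) ≠ 0 := fun h => one_ne_zero (congrFun h 0)
  exact ⟨(S.x_ne_iff h (ix_mem S _) 0).2 one_ne_zero,
    funext fun j => (S.ratio h (ix_mem S _) j.succ 0).trans (div_one _)⟩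

theorem an_inf : An r {y | S.hx y 0 = 0} := An.of_fin fun y =>
  ⟨Unit, inferInstance, fun _ p => S.x (ix S y) p 0, fun _ => S.xhol (ix_mem S y) 0,
    (lb_near S.lb (ix_mem S y)).mono fun _ h => (hx_iff S h).trans (by simp)⟩

theorem isOpen_aff {O : Set (Cm r)} (hO : IsOpen O) : IsOpen {y | S.hx y 0 ≠ 0 ∧ S.aff y ∈ O} := by
  refine isOpen_iff_mem_nhds.2 fun y hy => ?_
  have h := ix_mem S y
  have c : ContinuousAt (fun p (j : Fin r) => S.x (ix S y) p j.succ / S.x (ix S y) p 0) y :=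
    continuousAt_pi.2 fun j => ((S.xhol h _).div (S.xhol h 0) hy.1).cont
  filter_upwards [lb_near S.lb h, (S.xhol h 0).ne_near hy.1, c.eventually_mem (hO.mem_nhds hy.2)]
    with p a1 a2 a3
  exact ⟨mt (hx_iff S a1).1 a2, aff_eq S a1 ▸ a3⟩

theorem cont_x (h : y ∈ S.H.U b) : ContinuousAt (fun p => ‖S.x b p‖) y :=
  (continuousAt_pi.2 fun j => (S.xhol h j).cont).norm

end Ps

namespace Cov

variable {n q : ℕ} {V : Mf n} (C : Cov V q) {x : C.W.X} {y : V.X}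

theorem off_iff : x ∈ off C.E ↔ C.p x ∉ C.B := by
  rw [← mem_preimage, C.pre, notMem_compl_iff]

theorem sheets (hy : y ∉ C.B) : ∃ σ : Fin q → C.W.X, (∀ i, C.p (σ i) = y) ∧
    ∀ (ι : Type) (s : ι → C.W.X → ℂ) a, C.tr s a y = ∑ i, s a (σ i) := by
  obtain ⟨σ, -, h⟩ := C.cvg y hy
  obtain ⟨h1, h2⟩ := h.self_of_nhds
  refine ⟨fun i => σ i y, fun i => (h2.le ⟨i, rfl⟩ :), fun ι s a => ?_⟩
  rw [tr, ← h2, finsum_mem_range h1, finsum_eq_sum_of_fintype]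

theorem nz {h : V.X → ℂ} (h1 : Hol n h (C.p x)) (h2 : Nz h (C.p x)) : Nz (fun z => h (C.p z)) x :=
  fun k => by
    obtain ⟨z, a, b, c⟩ := ((Hyp.of_snc C.snc).freq x |>.and_eventually (k.eventually_nhds.and
      (C.hol.cont.continuousAt.eventually (h2.near h1)))).exists
    refine c ?_
    rwa [← (imm_iff_sbm.1 (C.imm z a)).map_nhds (C.hol.at z), eventually_map]

end Cov

theorem mer_pow {n : ℕ} {X : Type} [TopologicalSpace X] [ChartedSpace (Cm n) X]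
    [IsManifold 𝓘(ℂ, Cm n) ω X] {a : X → ℂ} {x : X} (h : Mer n a x) (k : ℕ) :
    Mer n (fun y => a y ^ k) x := by
  induction k with
  | zero => simpa using mer_of_hol (hol_const 1 x)
  | succ k ih => simpa only [pow_succ] using mer_mul ih h

theorem root {l a t : ℂ} {q k : ℕ} {ε : ℝ} (hq : 0 < q) (ht : t ≠ 0) (hε : ε * q = k)
    (h : l ^ q = a ^ q / t ^ k) : ‖l‖ₑ ^ 2 = ‖a‖ₑ ^ (2 : ℝ) * ‖t‖ₑ ^ (-(2 * ε)) := by
  have p : 0 < ‖t‖ := norm_pos_iff.2 ht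
  have e : ‖l‖ = ‖a‖ * ‖t‖ ^ (-ε) := (pow_left_inj₀ (norm_nonneg _) (by positivity) hq.ne').1 (by
    rw [← norm_pow, h, mul_pow, ← Real.rpow_natCast (‖t‖ ^ (-ε)), ← Real.rpow_mul p.le, neg_mul, hε,
      Real.rpow_neg p.le, Real.rpow_natCast, norm_div, norm_pow, norm_pow, div_eq_mul_inv])
  rw [← ofReal_norm, ← ofReal_norm a, ← ofReal_norm t, e,
    ENNReal.ofReal_mul (norm_nonneg _), mul_pow, ← ENNReal.ofReal_rpow_of_pos p,
    ← ENNReal.rpow_natCast (_ ^ (-ε)), ← ENNReal.rpow_mul, ENNReal.rpow_two]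
  congr 2
  push_cast
  ring

theorem mean_le {q : ℕ} (hq : 0 < q) (a : Fin q → ℂ) : ∃ i, ‖(q : ℂ)⁻¹ * ∑ j, a j‖ ≤ ‖a i‖ := by
  have : Nonempty (Fin q) := ⟨⟨0, hq⟩⟩
  obtain ⟨i, hi⟩ := Finite.exists_max fun j => ‖a j‖
  refine ⟨i, ?_⟩
  rw [norm_mul, norm_inv, Complex.norm_natCast, inv_mul_le_iff₀ (Nat.cast_pos.2 hq)]
  simpa using (norm_sum_le _ _).trans (Finset.sum_le_card_nsmul .univ _ _ fun j _ => hi j)

theorem final {T a t ψ ξ j : ℂ} {R : ℝ} {D H : ℝ≥0∞} {m : ℕ} (hR : 0 ≤ R) (h : ‖T‖ ≤ ‖ψ‖)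
    (ht : ‖t‖ₑ ^ 2 = ‖ξ‖ₑ ^ (2 : ℝ) * D * ‖j‖ₑ ^ 2) :
    ‖T / a ^ m * ξ‖ₑ ^ (2 : ℝ) * D * ENNReal.ofReal (‖a‖ / R) ^ (2 * m) * H * ‖j‖ₑ ^ 2 ≤
      ‖t * ψ / (R : ℂ) ^ m‖ₑ ^ 2 * H := by
  have k : ‖T / a ^ m‖ * (‖a‖ / R) ^ m ≤ ‖ψ / (R : ℂ) ^ m‖ := by
    rw [norm_div, norm_div, norm_pow, norm_pow, Complex.norm_of_nonneg hR, div_pow,
      div_mul_div_comm, mul_comm (‖a‖ ^ m), ← div_mul_div_comm]
    exact (mul_le_of_le_one_right (by positivity) (div_self_le_one _)).trans (by gcongr)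
  have k' := ENNReal.ofReal_le_ofReal k
  rw [ENNReal.ofReal_mul (norm_nonneg _), ENNReal.ofReal_pow (by positivity), ofReal_norm,
    ofReal_norm] at k'
  rw [ENNReal.rpow_two] at ht ⊢
  rw [mul_div_assoc, enorm_mul, enorm_mul, mul_pow, mul_pow, ht, mul_comm 2 m, pow_mul]
  calc _ = ‖ξ‖ₑ ^ 2 * D * ‖j‖ₑ ^ 2 * (‖T / a ^ m‖ₑ * ENNReal.ofReal (‖a‖ / R) ^ m) ^ 2 * H := by ring
    _ ≤ _ := by gcongr

end Vale.Agent.P281Z.Bs
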